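import Vale.Agent.P226.Reduce.Law

/-!
# The expected maximum `E max_i ⟪z i, X⟫`, its maximisers and their cells
-/

open MeasureTheory ProbabilityTheory Real Set Finset
open scoped RealInnerProductSpace

namespace Vale.Agent.P226

variable {d d' k : ℕ}

/-- The largest of the numbers `⟪z i, x⟫`. -/
noncomputable def maxInner (z : Fin (k + 1) → EuclideanSpace ℝ (Fin d))
    (x : EuclideanSpace ℝ (Fin d)) : ℝ :=
  univ.sup' univ_nonempty fun i => ⟪z i, x⟫

/-- The expected maximum of the Gaussian family given by `z`. -/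
noncomputable def gmax (z : Fin (k + 1) → EuclideanSpace ℝ (Fin d)) : ℝ :=
  ∫ x, maxInner z x ∂stdGaussian (EuclideanSpace ℝ (Fin d))

/-- The cell where `i` is the first index attaining the maximum. -/
def argCell (z : Fin k → EuclideanSpace ℝ (Fin d)) (i : Fin k) :
    Set (EuclideanSpace ℝ (Fin d)) :=
  {x | (∀ j, ⟪z j, x⟫ ≤ ⟪z i, x⟫) ∧ ∀ j, j < i → ⟪z j, x⟫ < ⟪z i, x⟫}

lemma le_maxInner (z : Fin (k + 1) → EuclideanSpace ℝ (Fin d)) (x) (i : Fin (k + 1)) :
    ⟪z i, x⟫ ≤ maxInner z x :=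
  le_sup' (f := fun i => ⟪z i, x⟫) (mem_univ i)

lemma maxInner_le {z : Fin (k + 1) → EuclideanSpace ℝ (Fin d)} {x} {M : ℝ}
    (h : ∀ i, ⟪z i, x⟫ ≤ M) : maxInner z x ≤ M :=
  sup'_le _ _ fun i _ => h i

lemma continuous_maxInner (z : Fin (k + 1) → EuclideanSpace ℝ (Fin d)) :
    Continuous (maxInner z) :=
  Continuous.finset_sup'_apply univ_nonempty fun i _ => by fun_prop

lemma integrable_inner' (w : EuclideanSpace ℝ (Fin d)) :
    Integrable (fun x => ⟪w, x⟫) (stdGaussian (EuclideanSpace ℝ (Fin d))) :=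
  IsGaussian.integrable_dual _ (innerSL ℝ w)

lemma abs_maxInner_sub_le (z y : Fin (k + 1) → EuclideanSpace ℝ (Fin d)) (x) :
    |maxInner z x - maxInner y x| ≤ (∑ i, ‖z i - y i‖) * ‖x‖ := by
  have key : ∀ a b : Fin (k + 1) → EuclideanSpace ℝ (Fin d),
      maxInner a x ≤ maxInner b x + (∑ i, ‖a i - b i‖) * ‖x‖ := fun a b => maxInner_le fun i => by
    have h1 : ⟪a i - b i, x⟫ ≤ ‖a i - b i‖ * ‖x‖ := real_inner_le_norm _ _
    have h2 := le_maxInner b x i
    have h3 : ‖a i - b i‖ * ‖x‖ ≤ (∑ j, ‖a j - b j‖) * ‖x‖ :=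
      mul_le_mul_of_nonneg_right
        (single_le_sum (f := fun j => ‖a j - b j‖) (fun j _ => norm_nonneg _) (mem_univ i))
        (norm_nonneg x)
    rw [inner_sub_left] at h1
    linarith
  rw [abs_sub_le_iff]
  have h1 := key z y
  have h2 := key y z
  simp only [norm_sub_rev (y _)] at h2
  constructor <;> linarith

lemma abs_maxInner_le (z : Fin (k + 1) → EuclideanSpace ℝ (Fin d)) (x) :
    |maxInner z x| ≤ (∑ i, ‖z i‖) * ‖x‖ := by
  have h := abs_maxInner_sub_le z (fun _ => 0) x
  simpa [maxInner] using h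

lemma integrable_norm_stdGaussian :
    Integrable (fun x : EuclideanSpace ℝ (Fin d) => ‖x‖)
      (stdGaussian (EuclideanSpace ℝ (Fin d))) :=
  (IsGaussian.integrable_id).norm

lemma integrable_maxInner (z : Fin (k + 1) → EuclideanSpace ℝ (Fin d)) :
    Integrable (maxInner z) (stdGaussian (EuclideanSpace ℝ (Fin d))) :=
  (integrable_norm_stdGaussian.const_mul (∑ i, ‖z i‖)).mono'
    (continuous_maxInner z).aestronglyMeasurable (ae_of_all _ fun x => abs_maxInner_le z x)

lemma continuous_gmax :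
    Continuous (gmax : (Fin (k + 1) → EuclideanSpace ℝ (Fin d)) → ℝ) := by
  set R := ∫ x : EuclideanSpace ℝ (Fin d), ‖x‖ ∂stdGaussian (EuclideanSpace ℝ (Fin d)) with hR
  refine (LipschitzWith.of_le_add_mul' ((k + 1) * R) fun z y => ?_).continuous
  have hR0 : 0 ≤ R := integral_nonneg fun x => norm_nonneg x
  have h : gmax z - gmax y ≤ (∑ i, ‖z i - y i‖) * R := by
    rw [gmax, gmax, ← integral_sub (integrable_maxInner z) (integrable_maxInner y), hR,
      ← integral_const_mul]
    exact integral_mono ((integrable_maxInner z).sub (integrable_maxInner y))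
      (integrable_norm_stdGaussian.const_mul _)
      fun x => (le_abs_self _).trans (abs_maxInner_sub_le z y x)
  have hs : ∑ i, ‖z i - y i‖ ≤ (k + 1) * dist z y := by
    refine (sum_le_card_nsmul univ _ (dist z y) fun i _ => ?_).trans_eq (by simp)
    rw [← dist_eq_norm]
    exact dist_le_pi_dist z y i
  nlinarith [mul_le_mul_of_nonneg_right hs hR0]

lemma gmax_gram_congr {z : Fin (k + 1) → EuclideanSpace ℝ (Fin d)}
    {z' : Fin (k + 1) → EuclideanSpace ℝ (Fin d')} (h : ∀ i j, ⟪z i, z j⟫ = ⟪z' i, z' j⟫) :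
    gmax z = gmax z' := by
  have e : ∀ {e : ℕ} (w : Fin (k + 1) → EuclideanSpace ℝ (Fin e)), gmax w =
      ∫ y : EuclideanSpace ℝ (Fin (k + 1)), univ.sup' univ_nonempty (fun i => y i)
        ∂(stdGaussian (EuclideanSpace ℝ (Fin e))).map (coordMap w) := fun w => by
    rw [integral_map (continuous_coordMap w).aemeasurable
      (Continuous.finset_sup'_apply univ_nonempty fun i _ => by fun_prop).aestronglyMeasurable]
    rfl
  rw [e, e, map_coordMap_eq h]

lemma maxInner_smul {c : ℝ} (hc : 0 ≤ c) (z : Fin (k + 1) → EuclideanSpace ℝ (Fin d)) (x) :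
    maxInner (fun i => c • z i) x = c * maxInner z x := by
  refine le_antisymm (maxInner_le fun i => ?_) ?_
  · rw [real_inner_smul_left]
    exact mul_le_mul_of_nonneg_left (le_maxInner z x i) hc
  · obtain ⟨i, -, hi⟩ := exists_mem_eq_sup' univ_nonempty fun i => ⟪z i, x⟫
    have := le_maxInner (fun i => c • z i) x i
    simp only [real_inner_smul_left] at this
    rw [maxInner, hi]
    exact this

lemma gmax_smul {c : ℝ} (hc : 0 ≤ c) (z : Fin (k + 1) → EuclideanSpace ℝ (Fin d)) :
    gmax (fun i => c • z i) = c * gmax z := by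
  simp only [gmax, maxInner_smul hc, integral_const_mul]

lemma measurableSet_argCell (z : Fin k → EuclideanSpace ℝ (Fin d)) (i : Fin k) :
    MeasurableSet (argCell z i) := by
  simp only [argCell, ofPred_and, ofPred_forall]
  exact (MeasurableSet.iInter fun j => measurableSet_le (by fun_prop) (by fun_prop)).inter
    (MeasurableSet.iInter fun j => MeasurableSet.iInter fun _ =>
      measurableSet_lt (by fun_prop) (by fun_prop))

lemma pairwise_disjoint_argCell (z : Fin k → EuclideanSpace ℝ (Fin d)) :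
    Pairwise (Function.onFun Disjoint (argCell z)) := fun i j hij => by
  refine Set.disjoint_left.2 fun x hi hj => ?_
  rcases lt_or_gt_of_ne hij with h | h
  · linarith [hj.2 i h, hi.1 j]
  · linarith [hi.2 j h, hj.1 i]

lemma iUnion_argCell (z : Fin (k + 1) → EuclideanSpace ℝ (Fin d)) :
    ⋃ i, argCell z i = Set.univ := by
  refine Set.eq_univ_of_forall fun x => Set.mem_iUnion.2 ?_
  have hne : (univ.filter fun i => ∀ j, ⟪z j, x⟫ ≤ ⟪z i, x⟫).Nonempty := by
    obtain ⟨i, -, hi⟩ := exists_mem_eq_sup' univ_nonempty fun i => ⟪z i, x⟫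
    exact ⟨i, mem_filter.2 ⟨mem_univ i, fun j =>
      (le_maxInner z x j).trans_eq (by rw [maxInner, hi])⟩⟩
  set i := (univ.filter fun i => ∀ j, ⟪z j, x⟫ ≤ ⟪z i, x⟫).min' hne with hi
  have hmem := (mem_filter.1 (min'_mem _ hne)).2
  refine ⟨i, hmem, fun j hj => ?_⟩
  by_contra hc
  rw [not_lt] at hc
  exact absurd (min'_le _ j (mem_filter.2 ⟨mem_univ j, fun l => (hmem l).trans hc⟩))
    (not_le.2 hj)

lemma inner_moment (z : EuclideanSpace ℝ (Fin d)) (A : Set (EuclideanSpace ℝ (Fin d))) :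
    ⟪z, moment A⟫ = ∫ x in A, ⟪z, x⟫ ∂stdGaussian (EuclideanSpace ℝ (Fin d)) :=
  (integral_inner IsGaussian.integrable_fun_id.integrableOn z).symm

/-- Any partition gives a lower bound for the expected maximum. -/
theorem sum_inner_moment_le {z : Fin (k + 1) → EuclideanSpace ℝ (Fin d)}
    {A : Fin (k + 1) → Set (EuclideanSpace ℝ (Fin d))} (hm : ∀ i, MeasurableSet (A i))
    (hd : Pairwise (Function.onFun Disjoint A)) (hu : ⋃ i, A i = Set.univ) :
    ∑ i, ⟪z i, moment (A i)⟫ ≤ gmax z := by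
  calc ∑ i, ⟪z i, moment (A i)⟫
      ≤ ∑ i, ∫ x in A i, maxInner z x ∂stdGaussian (EuclideanSpace ℝ (Fin d)) := by
        refine sum_le_sum fun i _ => ?_
        rw [inner_moment]
        exact setIntegral_mono (integrable_inner' _).integrableOn
          (integrable_maxInner z).integrableOn fun x => le_maxInner z x i
    _ = gmax z := by
        rw [← integral_iUnion_fintype hm hd fun i => (integrable_maxInner z).integrableOn, hu,
          setIntegral_univ, gmax]

/-- The cells of the maximum attain the expected maximum. -/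
theorem sum_inner_moment_argCell (z : Fin (k + 1) → EuclideanSpace ℝ (Fin d)) :
    ∑ i, ⟪z i, moment (argCell z i)⟫ = gmax z := by
  calc ∑ i, ⟪z i, moment (argCell z i)⟫
      = ∑ i, ∫ x in argCell z i, maxInner z x ∂stdGaussian (EuclideanSpace ℝ (Fin d)) := by
        refine sum_congr rfl fun i _ => ?_
        rw [inner_moment]
        exact setIntegral_congr_fun (measurableSet_argCell z i) fun x hx =>
          le_antisymm (le_maxInner z x i) (maxInner_le hx.1)
    _ = gmax z := by
        rw [← integral_iUnion_fintype (measurableSet_argCell z) (pairwise_disjoint_argCell z)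
          fun i => (integrable_maxInner z).integrableOn, iUnion_argCell, setIntegral_univ, gmax]

lemma sum_inner_le_sqrt {ι : Type*} (s : Finset ι) (u v : ι → EuclideanSpace ℝ (Fin d)) :
    ∑ i ∈ s, ⟪u i, v i⟫ ≤ √(∑ i ∈ s, ‖u i‖ ^ 2) * √(∑ i ∈ s, ‖v i‖ ^ 2) :=
  (sum_le_sum fun i _ => real_inner_le_norm (u i) (v i)).trans
    (Real.sum_mul_le_sqrt_mul_sqrt s (fun i => ‖u i‖) fun i => ‖v i‖)

end Vale.Agent.P226
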