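import Vale.Agent.P226.Tail

/-!
# Numerical Gaussian estimates for the reduction
-/

open MeasureTheory ProbabilityTheory Real Set Filter

namespace Vale.Agent.P226

lemma le_inv_sqrt : 3989 / 10000 ≤ (√(2 * π))⁻¹ := by
  rw [le_inv_comm₀ (by norm_num) (by positivity), Real.sqrt_le_left (by norm_num)]
  linarith [Real.pi_lt_d6]

lemma exp_neg_half_le : exp (-(1 / 2) : ℝ) ≤ 60656 / 100000 := by
  refine le_of_pow_le_pow_left₀ two_ne_zero (by norm_num) ?_
  rw [← exp_nat_mul]
  norm_num
  rw [exp_neg, inv_le_comm₀ (exp_pos 1) (by norm_num)]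
  linarith [Real.exp_one_gt_d9]

lemma gauss_eq_integral {s : Set ℝ} :
    (gaussianReal 0 1).real s = (√(2 * π))⁻¹ * ∫ x in s, exp (-(1 / 2) * x ^ 2) := by
  rw [measureReal_def, gaussianReal_apply_eq_integral _ one_ne_zero, ENNReal.toReal_ofReal
    (integral_nonneg fun x => gaussianPDFReal_nonneg _ _ x)]
  simp only [pdf_eq, integral_const_mul]

/-- The tail is at most `1/4 / z²`. -/
theorem gauss_tail_le {z : ℝ} (hz : 0 < z) :
    (gaussianReal 0 1).real (Ioi z) ≤ 97 / (400 * z ^ 2) := by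
  set e : ℝ → ℝ := fun x => exp (-(1 / 2) * x ^ 2) with he
  have ie : Integrable e := integrable_exp_neg_mul_sq (by norm_num)
  have ixe : Integrable fun x => x * e x := integrable_mul_exp_neg_mul_sq (by norm_num)
  have h1 : ∫ x in Ioi z, x * e x = exp (-(1 / 2) * z ^ 2) := by
    rw [integral_Ioi_of_hasDerivAt_of_nonneg' (fun x _ => hasDerivAt_halfGauss x)
      (fun x hx => mul_nonneg (hz.le.trans (le_of_lt hx)) (exp_pos _).le) tendsto_halfGauss]
    simp
  have h2 : z * ∫ x in Ioi z, e x ≤ exp (-(1 / 2) * z ^ 2) := by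
    rw [← h1, ← integral_const_mul]
    exact setIntegral_mono_on (ie.integrableOn.const_mul z) ixe.integrableOn measurableSet_Ioi
      fun x hx => mul_le_mul_of_nonneg_right (le_of_lt hx) (exp_pos _).le
  have h3 : z * exp (-(1 / 2) * z ^ 2) ≤ exp (-(1 / 2) : ℝ) := by
    have h := add_one_le_exp (z - 1)
    refine (mul_le_mul_of_nonneg_right (show z ≤ exp ((z ^ 2 - 1) / 2) from ?_) (exp_pos _).le).trans
      (le_of_eq ?_)
    · refine le_trans (by linarith) (exp_le_exp.2 (show z - 1 ≤ (z ^ 2 - 1) / 2 by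
        nlinarith [sq_nonneg (z - 1)]))
    · rw [← exp_add]; congr 1; ring
  rw [gauss_eq_integral, le_div_iff₀ (by positivity)]
  calc (√(2 * π))⁻¹ * (∫ x in Ioi z, e x) * (400 * z ^ 2)
      = 400 * (√(2 * π))⁻¹ * (z * (z * ∫ x in Ioi z, e x)) := by ring
    _ ≤ 400 * (√(2 * π))⁻¹ * (z * exp (-(1 / 2) * z ^ 2)) := by gcongr
    _ ≤ 400 * (39895 / 100000) * (60656 / 100000) := by
        have := inv_sqrt_le
        exact mul_le_mul (by linarith) (h3.trans exp_neg_half_le) (by positivity) (by norm_num)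
    _ ≤ 97 := by norm_num

/-- An interval has at least its length times the least density. -/
lemma le_gauss_interval {a b B : ℝ} (hab : a ≤ b) (hB : ∀ x ∈ Icc a b, x ^ 2 ≤ B) :
    (b - a) * (3989 / 10000 * exp (-(B / 2))) ≤ (gaussianReal 0 1).real (Icc a b) := by
  rw [gauss_eq_integral]
  have h : (b - a) * exp (-(B / 2)) ≤ ∫ x in Icc a b, exp (-(1 / 2) * x ^ 2) := by
    have hc : Continuous fun x : ℝ => exp (-(1 / 2) * x ^ 2) := by fun_prop
    calc (b - a) * exp (-(B / 2)) = ∫ _x in Icc a b, exp (-(B / 2)) := by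
          simp [measureReal_def, Real.volume_Icc, ENNReal.toReal_ofReal (sub_nonneg.2 hab),
            mul_comm]
      _ ≤ _ := setIntegral_mono_on continuous_const.integrableOn_Icc hc.integrableOn_Icc
          measurableSet_Icc fun x hx => exp_le_exp.2 (by linarith [hB x hx])
  calc (b - a) * (3989 / 10000 * exp (-(B / 2))) = 3989 / 10000 * ((b - a) * exp (-(B / 2))) := by
        ring
    _ ≤ _ := mul_le_mul le_inv_sqrt h (mul_nonneg (by linarith) (exp_pos _).le) (by positivity)

lemma exp_neg_sixteen : (1 : ℝ) / 8900000 ≤ exp (-16) := by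
  rw [exp_neg, one_div]
  gcongr
  rw [show (16 : ℝ) = (16 : ℕ) * (1 : ℝ) by norm_num, exp_nat_mul]
  refine (pow_le_pow_left₀ (exp_pos 1).le (show exp 1 ≤ 2718281829 / 10 ^ 9 by
    linarith [Real.exp_one_lt_d9]) 16).trans ?_
  norm_num

/-- The quadratic bound on the Gaussian excess. -/
theorem tailMean_le_quad {t : ℝ} (ht : 0 ≤ t) :
    tailMean t ≤ 39895 / 100000 * (1 + t ^ 2 / 2) - t / 2 := by
  rcases le_total t 3 with h | h
  · refine (tailMean_le_poly ht).trans ?_
    have h4 : t ^ 6 / 240 ≤ t ^ 4 / 24 := by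
      nlinarith [mul_nonneg (pow_nonneg ht 4) (show 0 ≤ 10 - t ^ 2 by nlinarith)]
    have h1 : (√(2 * π))⁻¹ * (1 + t ^ 2 / 2 - t ^ 4 / 24 + t ^ 6 / 240) ≤
        (√(2 * π))⁻¹ * (1 + t ^ 2 / 2) := mul_le_mul_of_nonneg_left (by linarith) (by positivity)
    have := mul_le_mul_of_nonneg_right inv_sqrt_le (by positivity : (0 : ℝ) ≤ 1 + t ^ 2 / 2)
    linarith
  · have h7 := mul_tailMean_large (by linarith : 2 ≤ t)
    refine le_of_mul_le_mul_left (h7.trans ?_) (by linarith : 0 < t)
    nlinarith [mul_nonneg (mul_nonneg ht ht) (sub_nonneg.2 h)]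

/-- The bound for `t ≥ 4/3`. -/
theorem mul_tailMean_le_of_ge' {t : ℝ} (ht : 4 / 3 ≤ t) : t * tailMean t ≤ 3 / 50 := by
  rcases le_total t 2 with h | h
  · rcases le_total t (7 / 4) with h' | h'
    · refine (mul_tailMean_small (by linarith) h).trans ?_
      have a := sub_nonneg.2 ht
      have b := sub_nonneg.2 h'
      nlinarith [mul_nonneg a b, mul_nonneg (mul_nonneg a b) a, mul_nonneg (mul_nonneg a b) b,
        mul_nonneg (mul_nonneg a a) (mul_nonneg b b), mul_nonneg (mul_nonneg a a) (mul_nonneg a b),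
        mul_nonneg (mul_nonneg b b) (mul_nonneg a b)]
    · have hm : tailMean t ≤ tailMean (7 / 4) :=
        integral_mono (integrable_posPart t) (integrable_posPart _)
          fun x => max_le_max (by linarith) le_rfl
      have h7 := mul_tailMean_small (t := 7 / 4) (by norm_num) (by norm_num)
      have h0 : 0 ≤ tailMean t := integral_nonneg fun x => le_max_right _ _
      norm_num at h7
      nlinarith [mul_le_mul h hm h0 (by norm_num : (0 : ℝ) ≤ 2)]
  · refine (mul_tailMean_le_exp (by linarith)).trans ?_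
    refine (exp_le_exp.2 (show -(t ^ 2 / 2) - 1 ≤ -3 by nlinarith)).trans ?_
    rw [exp_neg, inv_le_comm₀ (exp_pos 3) (by norm_num)]
    have h3 : exp 3 = exp 1 * exp 1 * exp 1 := by rw [← exp_add, ← exp_add]; norm_num
    have h1 := Real.exp_one_gt_d9
    rw [h3]
    nlinarith [mul_le_mul (show (27 / 10 : ℝ) ≤ exp 1 by linarith)
      (show (27 / 10 : ℝ) ≤ exp 1 by linarith) (by norm_num) (exp_pos 1).le]

end Vale.Agent.P226
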