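import Vale.Agent.P226.Reduce.Max

/-!
# Adding independent coordinates to a Gaussian family
-/

open MeasureTheory ProbabilityTheory Real Set Finset
open scoped RealInnerProductSpace

namespace Vale.Agent.P226

variable {d k : ℕ}

/-- A vector with one more leading coordinate. -/
noncomputable def consV (c : ℝ) (x : EuclideanSpace ℝ (Fin d)) :
    EuclideanSpace ℝ (Fin (d + 1)) := WithLp.toLp 2 (Fin.cons c x.ofLp)

/-- A vector without its leading coordinate. -/
noncomputable def tailV (w : EuclideanSpace ℝ (Fin (d + 1))) : EuclideanSpace ℝ (Fin d) :=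
  WithLp.toLp 2 fun i => w i.succ

@[simp] lemma consV_zero_apply (c : ℝ) (x : EuclideanSpace ℝ (Fin d)) : consV c x 0 = c := rfl

@[simp] lemma tailV_consV (c : ℝ) (x : EuclideanSpace ℝ (Fin d)) : tailV (consV c x) = x := by
  ext i
  simp [tailV, consV]

lemma inner_consV (c : ℝ) (x : EuclideanSpace ℝ (Fin d)) (w : EuclideanSpace ℝ (Fin (d + 1))) :
    ⟪consV c x, w⟫ = c * w 0 + ⟪x, tailV w⟫ := by
  rw [PiLp.inner_apply, PiLp.inner_apply, Fin.sum_univ_succ]
  simp [consV, tailV, RCLike.inner_apply, mul_comm]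

/-- A common shift does not change the expected maximum. -/
lemma gmax_add_const (y : Fin (k + 1) → EuclideanSpace ℝ (Fin d))
    (a : EuclideanSpace ℝ (Fin d)) : gmax (fun i => y i + a) = gmax y := by
  have h : ∀ x, maxInner (fun i => y i + a) x = maxInner y x + ⟪a, x⟫ := fun x => by
    refine le_antisymm (maxInner_le fun i => ?_) ?_
    · rw [inner_add_left]
      exact add_le_add (le_maxInner y x i) le_rfl
    · have : maxInner y x ≤ maxInner (fun i => y i + a) x - ⟪a, x⟫ := maxInner_le fun i => by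
        have := le_maxInner (fun i => y i + a) x i
        rw [inner_add_left] at this
        linarith
      linarith
  have h0 : ∫ x, ⟪a, x⟫ ∂stdGaussian (EuclideanSpace ℝ (Fin d)) = 0 := by
    rw [integral_inner IsGaussian.integrable_fun_id, integral_id_stdGaussian, inner_zero_right]
  simp only [gmax, h]
  rw [integral_add (integrable_maxInner y) (integrable_inner' a), h0, add_zero]

section submodular

variable (g : Fin (k + 1) → ℝ) {i j : Fin (k + 1)}

/-- The maximum after a shift. -/
noncomputable def shiftMax (v : Fin (k + 1) → ℝ) : ℝ :=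
  univ.sup' univ_nonempty fun l => v l + g l

lemma le_shiftMax (v : Fin (k + 1) → ℝ) (l : Fin (k + 1)) : v l + g l ≤ shiftMax g v :=
  le_sup' (f := fun l => v l + g l) (mem_univ l)

lemma shiftMax_le {v : Fin (k + 1) → ℝ} {M : ℝ} (h : ∀ l, v l + g l ≤ M) : shiftMax g v ≤ M :=
  sup'_le _ _ fun l _ => h l

lemma shiftMax_mono {v v' : Fin (k + 1) → ℝ} (h : ∀ l, v l ≤ v' l) :
    shiftMax g v ≤ shiftMax g v' :=
  shiftMax_le g fun l => (add_le_add (h l) le_rfl).trans (le_shiftMax g v' l)

/-- Submodularity of the maximum. -/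
lemma shiftMax_submodular (hij : i ≠ j) (s : ℝ) :
    shiftMax g 0 + shiftMax g (Pi.single i s + Pi.single j s) ≤
      shiftMax g (Pi.single i s) + shiftMax g (Pi.single j s) := by
  rcases le_total 0 s with hs | hs
  · have h1 : shiftMax g 0 ≤ shiftMax g (Pi.single i s) := shiftMax_mono g fun l => by
      rcases eq_or_ne l i with rfl | h <;> simp [*]
    have h2 : shiftMax g 0 ≤ shiftMax g (Pi.single j s) := shiftMax_mono g fun l => by
      rcases eq_or_ne l j with rfl | h <;> simp [*]
    have h3 : shiftMax g (Pi.single i s + Pi.single j s) ≤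
        max (shiftMax g (Pi.single i s)) (shiftMax g (Pi.single j s)) := shiftMax_le g fun l => by
      rcases eq_or_ne l j with rfl | h
      · exact le_max_of_le_right (by simpa [hij.symm] using le_shiftMax g (Pi.single l s) l)
      · exact le_max_of_le_left (by simpa [h] using le_shiftMax g (Pi.single i s) l)
    rcases le_max_iff.1 h3 with h | h <;> linarith
  · have h1 : shiftMax g (Pi.single i s + Pi.single j s) ≤ shiftMax g (Pi.single i s) :=
      shiftMax_mono g fun l => by rcases eq_or_ne l j with rfl | h <;> simp [*]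
    have h2 : shiftMax g (Pi.single i s + Pi.single j s) ≤ shiftMax g (Pi.single j s) :=
      shiftMax_mono g fun l => by rcases eq_or_ne l i with rfl | h <;> simp [*]
    have h3 : shiftMax g 0 ≤
        max (shiftMax g (Pi.single i s)) (shiftMax g (Pi.single j s)) := shiftMax_le g fun l => by
      rcases eq_or_ne l i with rfl | h
      · exact le_max_of_le_right (by simpa [hij] using le_shiftMax g (Pi.single j s) l)
      · exact le_max_of_le_left (by simpa [h] using le_shiftMax g (Pi.single i s) l)
    rcases le_max_iff.1 h3 with h | h <;> linarith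

/-- A near tie on top gives a gain. -/
lemma shiftMax_gain (hij : i ≠ j) {s : ℝ} (hs : 0 ≤ s) (hgap : |g i - g j| ≤ s / 2)
    (hrest : ∀ l, l ≠ i → l ≠ j → g l ≤ g i ∧ g l ≤ g j) :
    shiftMax g 0 + shiftMax g (Pi.single i s + Pi.single j s) + s / 2 ≤
      shiftMax g (Pi.single i s) + shiftMax g (Pi.single j s) := by
  have h0 : shiftMax g 0 ≤ max (g i) (g j) := shiftMax_le g fun l => by
    rcases eq_or_ne l i with rfl | hi
    · simp
    rcases eq_or_ne l j with rfl | hj
    · simp
    simp [(hrest l hi hj).1]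
  have h2 : shiftMax g (Pi.single i s + Pi.single j s) ≤ max (g i) (g j) + s :=
    shiftMax_le g fun l => by
      rcases eq_or_ne l i with rfl | hi
      · simp [hij]; linarith [le_max_left (g l) (g j)]
      rcases eq_or_ne l j with rfl | hj
      · simp [hi]; linarith [le_max_right (g i) (g l)]
      simp [hi, hj]; linarith [le_max_left (g i) (g j), (hrest l hi hj).1]
  have hi : s + g i ≤ shiftMax g (Pi.single i s) := by
    simpa using le_shiftMax g (Pi.single i s) i
  have hj : s + g j ≤ shiftMax g (Pi.single j s) := by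
    simpa using le_shiftMax g (Pi.single j s) j
  rw [abs_sub_le_iff] at hgap
  rcases le_total (g i) (g j) with h | h
  · rw [max_eq_right h] at h0 h2
    linarith
  · rw [max_eq_left h] at h0 h2
    linarith

end submodular

/-- The family perturbed by `v` times an independent normal. -/
noncomputable def perturb (c : Fin k → ℝ) (z : Fin k → EuclideanSpace ℝ (Fin d))
    (v : Fin k → ℝ) : Fin k → EuclideanSpace ℝ (Fin (d + 1 + 1)) :=
  fun l => consV (v l) (consV (c l) (z l))

lemma inner_perturb (c : Fin k → ℝ) (z : Fin k → EuclideanSpace ℝ (Fin d)) (v : Fin k → ℝ)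
    (l : Fin k) (w : EuclideanSpace ℝ (Fin (d + 1 + 1))) :
    ⟪perturb c z v l, w⟫ = v l * w 0 + (c l * tailV w 0 + ⟪z l, tailV (tailV w)⟫) := by
  rw [perturb, inner_consV, inner_consV]

lemma inner_perturb_perturb (c : Fin k → ℝ) (z : Fin k → EuclideanSpace ℝ (Fin d))
    (v : Fin k → ℝ) (l m : Fin k) :
    ⟪perturb c z v l, perturb c z v m⟫ = v l * v m + (c l * c m + ⟪z l, z m⟫) := by
  rw [inner_perturb]
  simp [perturb]

lemma gmax_perturb_sub (c : Fin (k + 1) → ℝ) (z : Fin (k + 1) → EuclideanSpace ℝ (Fin d))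
    (v : Fin (k + 1) → ℝ) (a : ℝ) :
    gmax (perturb c z fun l => v l - a) = gmax (perturb c z v) := by
  rw [← gmax_add_const (perturb c z v) (consV (-a) 0)]
  congr 1
  funext l
  refine ext_inner_right ℝ fun w => ?_
  rw [inner_add_left, inner_perturb, inner_perturb, inner_consV, inner_zero_left]
  ring

lemma maxInner_perturb (c : Fin (k + 1) → ℝ) (z : Fin (k + 1) → EuclideanSpace ℝ (Fin d))
    (v : Fin (k + 1) → ℝ) (w : EuclideanSpace ℝ (Fin (d + 1 + 1))) :
    maxInner (perturb c z v) w =
      shiftMax (fun l => c l * tailV w 0 + ⟪z l, tailV (tailV w)⟫) fun l => v l * w 0 := by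
  simp only [maxInner, shiftMax, inner_perturb]

/-- The linear stretch realising an added rank-one covariance. -/
lemma le_gmax_stretch {z : Fin (k + 1) → EuclideanSpace ℝ (Fin d)} {r : ℝ}
    (hm : ∀ i, moment (argCell z i) = r • z i) (hn : ∑ i, ‖z i‖ ^ 2 = 1)
    (e : EuclideanSpace ℝ (Fin d)) :
    ∃ y : Fin (k + 1) → EuclideanSpace ℝ (Fin d),
      (∀ i j, ⟪y i, y j⟫ = ⟪z i, z j⟫ + ⟪z i, e⟫ * ⟪z j, e⟫) ∧
      r * (1 + (√(1 + ‖e‖ ^ 2) + 1)⁻¹ * ∑ i, ⟪z i, e⟫ ^ 2) ≤ gmax y := by
  set s := √(1 + ‖e‖ ^ 2) with hs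
  have hs2 : s ^ 2 = 1 + ‖e‖ ^ 2 := Real.sq_sqrt (by positivity)
  have hs0 : 0 < s + 1 := by positivity
  refine ⟨fun i => z i + ((s + 1)⁻¹ * ⟪z i, e⟫) • e, fun i j => ?_, ?_⟩
  · simp only [inner_add_left, inner_add_right, real_inner_smul_left, real_inner_smul_right,
      real_inner_self_eq_norm_sq, real_inner_comm (z j) e]
    field_simp
    linear_combination -(⟪z i, e⟫ * ⟪z j, e⟫) * hs2
  · refine le_of_eq_of_le ?_ (sum_inner_moment_le (measurableSet_argCell z)
      (pairwise_disjoint_argCell z) (iUnion_argCell z))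
    have : ∀ i, ⟪z i + ((s + 1)⁻¹ * ⟪z i, e⟫) • e, moment (argCell z i)⟫ =
        r * ‖z i‖ ^ 2 + r * (s + 1)⁻¹ * ⟪z i, e⟫ ^ 2 := fun i => by
      rw [hm, real_inner_smul_right, inner_add_left, real_inner_smul_left,
        real_inner_self_eq_norm_sq, real_inner_comm (z i) e]
      ring
    simp only [this, sum_add_distrib, ← mul_sum, hn]
    ring

end Vale.Agent.P226
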