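import Vale.Agent.P226.Reduce.Max
import Vale.Agent.P226.Reduce.Tails

/-!
# A family beating the propeller has three large vectors
-/

open MeasureTheory ProbabilityTheory Real Set Finset
open scoped RealInnerProductSpace NNReal

namespace Vale.Agent.P226

variable {d k : ℕ}

/-- The excess over a threshold is a scaled Gaussian tail moment. -/
lemma integral_excess_eq {t : ℝ} (z : EuclideanSpace ℝ (Fin d)) (hz : 0 < ‖z‖) :
    ∫ x, max (⟪z, x⟫ - t) 0 ∂stdGaussian (EuclideanSpace ℝ (Fin d)) =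
      ‖z‖ * tailMean (t / ‖z‖) := by
  have hf : Continuous fun y : ℝ => max (y - t) 0 := by fun_prop
  have hg : Continuous fun x : EuclideanSpace ℝ (Fin d) => ⟪z, x⟫ := by fun_prop
  have e1 : ∫ x, max (⟪z, x⟫ - t) 0 ∂stdGaussian (EuclideanSpace ℝ (Fin d))
      = ∫ y, max (y - t) 0 ∂gaussianReal 0 ⟨‖z‖ ^ 2, sq_nonneg _⟩ := by
    rw [← inner_law z, integral_map hg.aemeasurable hf.aestronglyMeasurable]
  have e2 : gaussianReal 0 ⟨‖z‖ ^ 2, sq_nonneg _⟩
      = (gaussianReal 0 1).map (fun y => ‖z‖ * y) := by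
    rw [gaussianReal_map_const_mul, mul_zero, mul_one]
    rfl
  rw [e1, e2, integral_map (by fun_prop) hf.aestronglyMeasurable]
  have e3 : ∀ y : ℝ, max (‖z‖ * y - t) 0 = ‖z‖ * max (y - t / ‖z‖) 0 := fun y => by
    rw [mul_max_of_nonneg _ _ hz.le, mul_zero]
    congr 1
    field_simp
  simp only [e3, integral_const_mul]
  rfl

/-- A quadratic bound on the excess. -/
lemma integral_excess_le_quad {t : ℝ} (ht : 0 ≤ t) (z : EuclideanSpace ℝ (Fin d)) (hz : 0 < ‖z‖) :
    ∫ x, max (⟪z, x⟫ - t) 0 ∂stdGaussian (EuclideanSpace ℝ (Fin d)) ≤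
      39895 / 100000 * ‖z‖ - t / 2 + 39895 / 200000 * t ^ 2 / ‖z‖ := by
  rw [integral_excess_eq z hz]
  refine (mul_le_mul_of_nonneg_left (tailMean_le_quad (div_nonneg ht hz.le)) hz.le).trans
    (le_of_eq ?_)
  field_simp
  ring

lemma excess_wide (z : EuclideanSpace ℝ (Fin d)) (h1 : ‖z‖ ≤ 1) :
    ∫ x, max (⟪z, x⟫ - 3 / 10) 0 ∂stdGaussian (EuclideanSpace ℝ (Fin d)) ≤
      264 / 1000 * ‖z‖ ^ 2 + (if 3 / 40 < ‖z‖ ^ 2 then 34 / 1000 else 0) := by
  split
  next h =>
    have hs : 27 / 100 ≤ ‖z‖ := le_of_sq_le_sq (by linarith) (norm_nonneg z)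
    refine (integral_excess_le_quad (by norm_num) z (by linarith)).trans ?_
    refine le_of_mul_le_mul_right ?_ (show (0 : ℝ) < ‖z‖ by linarith)
    rw [add_mul, add_mul, sub_mul, div_mul_cancel₀ _ (by linarith : ‖z‖ ≠ 0)]
    nlinarith [mul_nonneg (sq_nonneg (‖z‖ - 7 / 10)) (norm_nonneg z), sq_nonneg (‖z‖ - 7 / 10),
      mul_nonneg (sub_nonneg.2 hs) (sub_nonneg.2 h1)]
  next h =>
    rw [add_zero]
    refine (integral_excess (C := 792 / 10000) (by norm_num) z fun hz =>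
      mul_tailMean_le_of_ge ?_).trans (le_of_eq (by ring))
    rw [le_div_iff₀ (norm_pos_iff.2 hz)]
    nlinarith [norm_nonneg z, not_lt.1 h]

lemma excess_narrow (z : EuclideanSpace ℝ (Fin d)) (h1 : ‖z‖ ≤ 1) :
    ∫ x, max (⟪z, x⟫ - 1 / 5) 0 ∂stdGaussian (EuclideanSpace ℝ (Fin d)) ≤
      3 / 10 * ‖z‖ ^ 2 + (if 9 / 400 < ‖z‖ ^ 2 then 46 / 1000 else 0) := by
  split
  next h =>
    have hs : 15 / 100 ≤ ‖z‖ := le_of_sq_le_sq (by linarith) (norm_nonneg z)
    refine (integral_excess_le_quad (by norm_num) z (by linarith)).trans ?_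
    refine le_of_mul_le_mul_right ?_ (show (0 : ℝ) < ‖z‖ by linarith)
    rw [add_mul, add_mul, sub_mul, div_mul_cancel₀ _ (by linarith : ‖z‖ ≠ 0)]
    nlinarith [mul_nonneg (sq_nonneg (‖z‖ - 64 / 100)) (norm_nonneg z),
      sq_nonneg (‖z‖ - 64 / 100), mul_nonneg (sub_nonneg.2 hs) (sub_nonneg.2 h1)]
  next h =>
    rw [add_zero]
    refine (integral_excess (C := 3 / 50) (by norm_num) z fun hz =>
      mul_tailMean_le_of_ge' ?_).trans (le_of_eq (by ring))
    rw [le_div_iff₀ (norm_pos_iff.2 hz)]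
    nlinarith [norm_nonneg z, not_lt.1 h]

/-- A threshold bound with two regimes of cell sizes. -/
lemma gmax_le_threshold {z : Fin (k + 1) → EuclideanSpace ℝ (Fin d)} (hn : ∑ i, ‖z i‖ ^ 2 = 1)
    {t s L τ : ℝ} (hf : ∀ w : EuclideanSpace ℝ (Fin d), ‖w‖ ≤ 1 →
      ∫ x, max (⟪w, x⟫ - t) 0 ∂stdGaussian (EuclideanSpace ℝ (Fin d)) ≤
        s * ‖w‖ ^ 2 + (if τ < ‖w‖ ^ 2 then L else 0)) :
    gmax z ≤ t + s + L * ((Finset.univ.filter fun i => τ < ‖z i‖ ^ 2).card : ℝ) := by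
  have hP : ∀ i, Integrable (fun x => max (⟪z i, x⟫ - t) 0)
      (stdGaussian (EuclideanSpace ℝ (Fin d))) := fun i =>
    ((integrable_inner' (z i)).sub (integrable_const t)).pos_part
  have h1 : gmax z ≤ t + ∑ i, ∫ x, max (⟪z i, x⟫ - t) 0
      ∂stdGaussian (EuclideanSpace ℝ (Fin d)) := by
    have hG : Integrable (fun x => ∑ i, max (⟪z i, x⟫ - t) 0)
        (stdGaussian (EuclideanSpace ℝ (Fin d))) := integrable_finsetSum _ fun i _ => hP i
    refine (integral_mono (integrable_maxInner z) ((integrable_const t).add hG)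
      fun x => maxInner_le fun i => ?_).trans (le_of_eq ?_)
    · have := single_le_sum (f := fun j => max (⟪z j, x⟫ - t) 0)
        (fun j _ => le_max_right _ _) (Finset.mem_univ i)
      have := le_max_left (⟪z i, x⟫ - t) 0
      simp only [Pi.add_apply]
      linarith
    · simp only [Pi.add_apply]
      rw [integral_add (integrable_const t) hG, integral_finsetSum _ fun i _ => hP i,
        integral_const]
      simp
  refine h1.trans ?_
  have h2 := Finset.sum_le_sum fun i (_ : i ∈ Finset.univ) => hf (z i) (by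
    have h := single_le_sum (f := fun j => ‖z j‖ ^ 2) (fun j _ => sq_nonneg _) (Finset.mem_univ i)
    rw [hn] at h
    exact (pow_le_one_iff_of_nonneg (norm_nonneg _) two_ne_zero).1 h)
  rw [sum_add_distrib, ← mul_sum, hn, ← sum_filter, sum_const, nsmul_eq_mul] at h2
  linarith

/-- A family beating the propeller has a non-antipodal pair of large vectors. -/
theorem exists_big_pair {z : Fin (k + 1) → EuclideanSpace ℝ (Fin d)} (hn : ∑ i, ‖z i‖ ^ 2 = 1)
    (hr : 598 / 1000 < gmax z) :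
    ∃ i j, i ≠ j ∧ 3 / 40 < ‖z i‖ ^ 2 ∧ 9 / 400 < ‖z j‖ ^ 2 ∧
      -(‖z i‖ * ‖z j‖ / 2) ≤ ⟪z i, z j⟫ := by
  classical
  set S₁ := Finset.univ.filter fun i => (3 / 40 : ℝ) < ‖z i‖ ^ 2 with hS₁
  set S₂ := Finset.univ.filter fun i => (9 / 400 : ℝ) < ‖z i‖ ^ 2 with hS₂
  have hc₁ : 1 < S₁.card := by
    by_contra hc
    have h := gmax_le_threshold hn (excess_wide (d := d))
    have : (S₁.card : ℝ) ≤ 1 := by exact_mod_cast not_lt.1 hc
    linarith
  have hc₂ : 2 < S₂.card := by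
    by_contra hc
    have h := gmax_le_threshold hn (excess_narrow (d := d))
    have : (S₂.card : ℝ) ≤ 2 := by exact_mod_cast not_lt.1 hc
    linarith
  obtain ⟨a, ha, b, hb, hab⟩ := one_lt_card.1 hc₁
  obtain ⟨c, hc, hca, hcb⟩ : ∃ c ∈ S₂, c ≠ a ∧ c ≠ b := by
    by_contra hh
    push Not at hh
    have : S₂ ⊆ {a, b} := fun c hc => by
      rcases eq_or_ne c a with h | h
      · simp [h]
      · simp [hh c hc h]
    have := (Finset.card_le_card this).trans card_le_two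
    omega
  simp only [hS₁, hS₂, mem_filter, Finset.mem_univ, true_and] at ha hb hc
  by_contra hno
  push Not at hno
  have h1 := hno a b hab ha (by linarith)
  have h2 := hno a c hca.symm ha hc
  have h3 := hno b c hcb.symm hb hc
  have pa : 0 < ‖z a‖ := (norm_nonneg _).lt_of_ne' fun e => by rw [e] at ha; norm_num at ha
  have pb : 0 < ‖z b‖ := (norm_nonneg _).lt_of_ne' fun e => by rw [e] at hb; norm_num at hb
  have pc : 0 < ‖z c‖ := (norm_nonneg _).lt_of_ne' fun e => by rw [e] at hc; norm_num at hc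
  set A := ‖z a‖
  set B := ‖z b‖
  set C := ‖z c‖
  have h := sq_nonneg ‖(B * C) • z a + (A * C) • z b + (A * B) • z c‖
  rw [norm_add_sq_real, norm_add_sq_real] at h
  simp only [inner_add_left, real_inner_smul_left, real_inner_smul_right, norm_smul, mul_pow,
    Real.norm_eq_abs, sq_abs] at h
  nlinarith [mul_lt_mul_of_pos_left h1 (mul_pos (mul_pos (mul_pos pa pb) pc) pc),
    mul_lt_mul_of_pos_left h2 (mul_pos (mul_pos (mul_pos pa pb) pc) pb),
    mul_lt_mul_of_pos_left h3 (mul_pos (mul_pos (mul_pos pa pb) pc) pa)]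

/-- The component of a big pair orthogonal to its difference is not small. -/
lemma big_pair_bound {A B p : ℝ} (hA : 0 ≤ A) (hB : 0 ≤ B) (hA' : 3 / 40 < A ^ 2)
    (hB' : 9 / 400 < B ^ 2) (hp : p < 0) (hp' : -(A * B / 2) ≤ p) :
    88 / 10000 * (A ^ 2 + B ^ 2 - 2 * p) ≤ A ^ 2 * B ^ 2 - p ^ 2 := by
  have a0 : 27 / 100 ≤ A := le_of_sq_le_sq (by linarith) hA
  have b0 : 15 / 100 ≤ B := le_of_sq_le_sq (by linarith) hB
  have hab := mul_le_mul a0 b0 (by norm_num) hA
  have hp2 : p ^ 2 ≤ (A * B / 2) ^ 2 := sq_le_sq' (by linarith) (by linarith)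
  have h2 := mul_le_mul_of_nonneg_left hab (mul_nonneg hA hB)
  have h3 := mul_le_mul_of_nonneg_left hA'.le (sq_nonneg B)
  have h4 := mul_le_mul_of_nonneg_left hB'.le (sq_nonneg A)
  nlinarith

end Vale.Agent.P226
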