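import Vale.Agent.P226.Reduce.Max

/-!
# Extremal families are simplices

If a family of `k + 2` vectors maximising `E max_i ⟪z i, X⟫` for given total squared norm beats every
family with one vector fewer, then its vectors are pairwise obtuse, sum to zero, and satisfy no
other linear relation.
-/

open MeasureTheory ProbabilityTheory Real Set Finset
open scoped RealInnerProductSpace

namespace Vale.Agent.P226

variable {d k : ℕ}

/-- A normalised family with the largest expected maximum among families of the same size. -/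
structure Extremal (z : Fin (k + 1) → EuclideanSpace ℝ (Fin (k + 1))) (r : ℝ) : Prop where
  norm_one : ∑ i, ‖z i‖ ^ 2 = 1
  le : ∀ (d : ℕ) (y : Fin (k + 1) → EuclideanSpace ℝ (Fin d)), gmax y ≤ r * √(∑ i, ‖y i‖ ^ 2)
  eq : gmax z = r

theorem exists_extremal (k : ℕ) :
    ∃ (z : Fin (k + 1) → EuclideanSpace ℝ (Fin (k + 1))) (r : ℝ), Extremal z r := by
  set S := {z : Fin (k + 1) → EuclideanSpace ℝ (Fin (k + 1)) | ∑ i, ‖z i‖ ^ 2 = 1} with hS
  have hc : IsCompact S := by
    refine Metric.isCompact_of_isClosed_isBounded (isClosed_eq (by fun_prop) continuous_const) ?_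
    refine (Metric.isBounded_iff_subset_closedBall 0).2 ⟨1, fun z hz => ?_⟩
    rw [mem_closedBall_zero_iff, pi_norm_le_iff_of_nonneg zero_le_one]
    intro i
    have h := single_le_sum (f := fun j => ‖z j‖ ^ 2) (fun j _ => sq_nonneg _) (mem_univ i)
    rw [show ∑ j, ‖z j‖ ^ 2 = 1 from hz] at h
    exact (pow_le_one_iff_of_nonneg (norm_nonneg _) two_ne_zero).1 h
  have hne : S.Nonempty := by
    refine ⟨Pi.single 0 (EuclideanSpace.single 0 1), ?_⟩
    show ∑ i, _ = (1 : ℝ)
    rw [Fintype.sum_eq_single 0 fun i hi => by simp [hi]]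
    simp
  obtain ⟨z, hz, hmax⟩ := hc.exists_isMaxOn hne continuous_gmax.continuousOn
  refine ⟨z, gmax z, hz, fun d y => ?_, rfl⟩
  set s := √(∑ i, ‖y i‖ ^ 2) with hs
  rcases (Real.sqrt_nonneg (∑ i, ‖y i‖ ^ 2)).eq_or_lt with h | h
  · have hy : ∀ i, y i = 0 := fun i => by
      have h0 := (Real.sqrt_eq_zero (sum_nonneg fun j _ => sq_nonneg ‖y j‖)).1 h.symm
      simpa using (sum_eq_zero_iff_of_nonneg fun j _ => sq_nonneg ‖y j‖).1 h0 i (mem_univ i)
    rw [hs, ← h, mul_zero]
    simp [gmax, maxInner, hy]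
  · obtain ⟨y', hy'⟩ := exists_gram_copy y
    have hn : ∀ i, ‖y' i‖ = ‖y i‖ := fun i => by
      rw [norm_eq_sqrt_real_inner, norm_eq_sqrt_real_inner, hy']
    have hmem : (fun i => s⁻¹ • y' i) ∈ S := by
      show ∑ i, ‖s⁻¹ • y' i‖ ^ 2 = 1
      simp only [norm_smul, mul_pow, ← mul_sum, hn, Real.norm_eq_abs, sq_abs, inv_pow]
      rw [hs, Real.sq_sqrt (sum_nonneg fun j _ => sq_nonneg ‖y j‖), inv_mul_cancel₀]
      exact fun h0 => by rw [h0, Real.sqrt_zero] at h; exact lt_irrefl 0 h
    have h1 : gmax (fun i => s⁻¹ • y' i) ≤ gmax z := hmax hmem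
    rw [gmax_smul (inv_nonneg.2 h.le), ← gmax_gram_congr (fun i j => (hy' i j).symm),
      inv_mul_le_iff₀ h] at h1
    linarith

/-- An index is never the merged one. -/
lemma exists_succAbove {n : ℕ} {i j : Fin (n + 1)} (h : j ≠ i) : ∃ l, i.succAbove l = j :=
  Fin.exists_succAbove_eq h

namespace Extremal

variable {z : Fin (k + 1) → EuclideanSpace ℝ (Fin (k + 1))} {r : ℝ}

lemma moment_eq (h : Extremal z r) (hr : 0 < r) (i : Fin (k + 1)) :
    moment (argCell z i) = r • z i := by
  set m := fun i => moment (argCell z i) with hm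
  have h1 : ∑ i, ⟪z i, m i⟫ = r := (sum_inner_moment_argCell z).trans h.eq
  have h2 : ∑ i, ⟪m i, m i⟫ ≤ gmax m := sum_inner_moment_le (measurableSet_argCell z)
    (pairwise_disjoint_argCell z) (iUnion_argCell z)
  simp only [real_inner_self_eq_norm_sq] at h2
  set F := ∑ i, ‖m i‖ ^ 2 with hF
  have h3 : F ≤ r * √F := h2.trans (h.le _ m)
  have h4 : √F ≤ r := by
    rcases (Real.sqrt_nonneg F).eq_or_lt with e | e
    · linarith
    · nlinarith [Real.mul_self_sqrt (sum_nonneg fun i (_ : i ∈ Finset.univ) => sq_nonneg ‖m i‖)]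
  have h5 : F ≤ r ^ 2 := by
    nlinarith [Real.sq_sqrt (sum_nonneg fun i (_ : i ∈ Finset.univ) => sq_nonneg ‖m i‖),
      Real.sqrt_nonneg F]
  have h6 : ∑ i, ‖m i - r • z i‖ ^ 2 ≤ 0 := by
    have e : ∀ i, ‖m i - r • z i‖ ^ 2 = ‖m i‖ ^ 2 - 2 * r * ⟪z i, m i⟫ + r ^ 2 * ‖z i‖ ^ 2 :=
      fun i => by
        rw [norm_sub_sq_real, real_inner_smul_right, norm_smul, Real.norm_eq_abs, mul_pow, sq_abs,
          real_inner_comm]
        ring
    simp only [e, sum_add_distrib, sum_sub_distrib, ← mul_sum, h1, h.norm_one, ← hF]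
    nlinarith
  have := (sum_eq_zero_iff_of_nonneg fun j _ => sq_nonneg ‖m j - r • z j‖).1
    (le_antisymm h6 (sum_nonneg fun j _ => sq_nonneg _)) i (mem_univ i)
  simpa [sub_eq_zero] using this

lemma sum_eq_zero' (h : Extremal z r) (hr : 0 < r) : ∑ i, z i = 0 := by
  have e : ∑ i, moment (argCell z i) = 0 := by
    simp only [moment]
    rw [← integral_iUnion_fintype (measurableSet_argCell z) (pairwise_disjoint_argCell z)
      fun i => IsGaussian.integrable_fun_id.integrableOn, iUnion_argCell, setIntegral_univ,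
      integral_id_stdGaussian]
  simp only [h.moment_eq hr, ← smul_sum, smul_eq_zero, hr.ne', false_or] at e
  exact e

end Extremal

/-- Merging two cells of an acute pair cannot lose. -/
lemma Extremal.inner_neg {z : Fin (k + 2) → EuclideanSpace ℝ (Fin (k + 2))} {r q : ℝ}
    (h : Extremal z r) (hq : 0 ≤ q) (hqr : q < r)
    (hprev : ∀ (d : ℕ) (y : Fin (k + 1) → EuclideanSpace ℝ (Fin d)),
      gmax y ≤ q * √(∑ i, ‖y i‖ ^ 2))
    {i j : Fin (k + 2)} (hij : i ≠ j) : ⟪z i, z j⟫ < 0 := by
  by_contra hneg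
  rw [not_lt] at hneg
  have hr : 0 < r := hq.trans_lt hqr
  set y : Fin (k + 1) → EuclideanSpace ℝ (Fin (k + 2)) :=
    fun l => z (i.succAbove l) + (if i.succAbove l = j then z i else 0) with hy
  set B : Fin (k + 1) → Set (EuclideanSpace ℝ (Fin (k + 2))) :=
    fun l => argCell z (i.succAbove l) ∪ (if i.succAbove l = j then argCell z i else ∅) with hB
  have hBm : ∀ l, MeasurableSet (B l) := fun l => (measurableSet_argCell z _).union (by
    split
    · exact measurableSet_argCell z i
    · exact MeasurableSet.empty)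
  have hmom : ∀ l, moment (B l) = r • y l := fun l => by
    simp only [hB, hy]
    split
    · rw [moment, setIntegral_union (pairwise_disjoint_argCell z (Fin.succAbove_ne i l))
        (measurableSet_argCell z i) IsGaussian.integrable_fun_id.integrableOn
        IsGaussian.integrable_fun_id.integrableOn, smul_add, ← h.moment_eq hr, ← h.moment_eq hr,
        moment, moment]
    · rw [Set.union_empty, add_zero, h.moment_eq hr]
  have hBd : Pairwise (Function.onFun Disjoint B) := fun l l' hll => by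
    have hne : i.succAbove l ≠ i.succAbove l' := fun e => hll (Fin.succAbove_right_injective e)
    have hd := pairwise_disjoint_argCell z
    have a1 := hd hne
    have a2 := hd (Fin.succAbove_ne i l)
    have a3 := hd (Fin.succAbove_ne i l').symm
    show Disjoint (B l) (B l')
    simp only [hB]
    split <;> split
    · rename_i e1 e2; exact absurd (e1.trans e2.symm) hne
    · simpa using ⟨a1, a3⟩
    · simpa using ⟨a1, a2⟩
    · simpa using a1
  have hBu : ⋃ l, B l = Set.univ := Set.eq_univ_of_forall fun x => by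
    obtain ⟨m, hm⟩ := Set.mem_iUnion.1 ((iUnion_argCell z).symm ▸ Set.mem_univ x)
    rw [Set.mem_iUnion]
    rcases eq_or_ne m i with rfl | hmi
    · obtain ⟨l, hl⟩ := exists_succAbove hij.symm
      exact ⟨l, Or.inr (by simp [hl, hm])⟩
    · obtain ⟨l, hl⟩ := exists_succAbove hmi
      exact ⟨l, Or.inl (by rw [hl]; exact hm)⟩
  have h1 : r * ∑ l, ‖y l‖ ^ 2 ≤ gmax y := by
    refine le_trans (le_of_eq ?_) (sum_inner_moment_le hBm hBd hBu)
    rw [mul_sum]
    refine sum_congr rfl fun l _ => ?_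
    rw [hmom, real_inner_smul_right, real_inner_self_eq_norm_sq]
  have hS : 1 ≤ ∑ l, ‖y l‖ ^ 2 := by
    obtain ⟨l₀, hl₀⟩ := exists_succAbove hij.symm
    have e : ∀ l, ‖y l‖ ^ 2 = ‖z (i.succAbove l)‖ ^ 2 +
        if l = l₀ then 2 * ⟪z j, z i⟫ + ‖z i‖ ^ 2 else 0 := fun l => by
      rcases eq_or_ne l l₀ with rfl | hl
      · simp [hy, hl₀, norm_add_sq_real, add_assoc]
      · have : i.succAbove l ≠ j := fun e => hl (Fin.succAbove_right_injective (e.trans hl₀.symm))
        simp [hy, hl, this]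
    simp only [e, sum_add_distrib, Finset.sum_ite_eq', Finset.mem_univ, if_true]
    have := Fin.sum_univ_succAbove (fun m => ‖z m‖ ^ 2) i
    rw [h.norm_one] at this
    rw [real_inner_comm]
    linarith
  have h2 := hprev _ y
  have h3 : r * √(∑ l, ‖y l‖ ^ 2) ≤ q := by
    have hpos : 0 < √(∑ l, ‖y l‖ ^ 2) := Real.sqrt_pos.2 (by linarith)
    refine le_of_mul_le_mul_right ?_ hpos
    rw [mul_assoc, Real.mul_self_sqrt (by linarith)]
    linarith
  nlinarith [Real.one_le_sqrt.2 hS]

/-- Strictly obtuse families with sum zero satisfy only the trivial relation. -/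
lemma eq_const_of_obtuse {n : ℕ} {z : Fin (k + 1) → EuclideanSpace ℝ (Fin n)}
    (hobt : ∀ i j, i ≠ j → ⟪z i, z j⟫ < 0) (hsum : ∑ i, z i = 0) {α : Fin (k + 1) → ℝ}
    (hα : ∑ i, α i • z i = 0) : ∃ c, ∀ i, α i = c := by
  obtain ⟨m, -, hm⟩ := exists_min_image univ α univ_nonempty
  refine ⟨α m, fun i => ?_⟩
  rcases eq_or_ne i m with rfl | hi
  · rfl
  have h0 : ∑ l, (α l - α m) * ⟪z m, z l⟫ = 0 := by
    simp only [← real_inner_smul_right, ← inner_sum, sub_smul, sum_sub_distrib, hα, ← smul_sum,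
      hsum, smul_zero, sub_zero, inner_zero_right]
  have h1 : ∀ l ∈ (univ : Finset (Fin (k + 1))), (α l - α m) * ⟪z m, z l⟫ ≤ 0 := fun l _ => by
    rcases eq_or_ne l m with rfl | hl
    · simp
    · exact mul_nonpos_of_nonneg_of_nonpos (sub_nonneg.2 (hm l (mem_univ l))) (hobt m l hl.symm).le
  have h2 := (sum_eq_zero_iff_of_nonpos h1).1 h0 i (mem_univ i)
  rcases mul_eq_zero.1 h2 with h | h
  · linarith
  · exact absurd h (hobt m i hi.symm).ne

/-- A vector with sum zero is the vector of inner products with some `e`. -/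
lemma exists_inner_eq {n : ℕ} {z : Fin (k + 1) → EuclideanSpace ℝ (Fin n)}
    (hobt : ∀ i j, i ≠ j → ⟪z i, z j⟫ < 0) (hsum : ∑ i, z i = 0) {w : Fin (k + 1) → ℝ}
    (hw : ∑ i, w i = 0) : ∃ e, ∀ i, ⟪z i, e⟫ = w i := by
  let L : EuclideanSpace ℝ (Fin n) →ₗ[ℝ] EuclideanSpace ℝ (Fin (k + 1)) :=
    { toFun := coordMap z
      map_add' := fun x y => by ext i; simp [inner_add_right]
      map_smul' := fun c x => by ext i; simp [real_inner_smul_right] }
  have hmem : WithLp.toLp 2 w ∈ L.range := by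
    rw [← Submodule.orthogonal_orthogonal L.range, Submodule.mem_orthogonal]
    intro α hα
    have hz : ∑ i, α i • z i = 0 := by
      refine ext_inner_right ℝ fun x => ?_
      have := (Submodule.mem_orthogonal _ α).1 hα (L x) (LinearMap.mem_range_self L x)
      simp only [L, LinearMap.coe_mk, AddHom.coe_mk] at this
      rw [PiLp.inner_apply] at this
      simp only [coordMap_apply, RCLike.inner_apply, conj_trivial] at this
      simp only [sum_inner, real_inner_smul_left, inner_zero_left]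
      simpa [mul_comm] using this
    obtain ⟨c, hc⟩ := eq_const_of_obtuse hobt hsum hz
    simp [PiLp.inner_apply, hc, ← sum_mul, hw]
  obtain ⟨e, he⟩ := hmem
  exact ⟨e, fun i => by simpa [L] using congrArg (fun v => v i) he⟩

end Vale.Agent.P226
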