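import Vale.Agent.P226.Reduce.Pair

/-!
# The bound on the number of vertices of an extremal simplex
-/

open MeasureTheory ProbabilityTheory Real Set Finset
open scoped RealInnerProductSpace

namespace Vale.Agent.P226

variable {k : ℕ}

/-- The field split along the difference of a big pair. -/
theorem exists_split {z : Fin (k + 1) → EuclideanSpace ℝ (Fin (k + 1))} {r : ℝ}
    (h : Extremal z r) (hr : 598 / 1000 < r) (hobt : ∀ i j, i ≠ j → ⟪z i, z j⟫ < 0) :
    ∃ (i j : Fin (k + 1)) (c : Fin (k + 1) → ℝ)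
      (z' : Fin (k + 1) → EuclideanSpace ℝ (Fin (k + 1))), i ≠ j ∧ z' j = z' i ∧
      (∀ l m, ⟪z' l, z' m⟫ = ⟪z l, z m⟫ - c l * c m) ∧ (∀ l, |c l| ≤ 1) ∧
      0 < c i - c j ∧ c i - c j ≤ 3 / 2 ∧
      31 / 250 * (21 / 100 * (3989 / 10000 * (1 / 8900000))) ≤
        (stdGaussian (EuclideanSpace ℝ (Fin (k + 1)))).real
          {x | 51 / 100 ≤ ⟪z' i, x⟫ ∧ ∀ l, l ≠ i → l ≠ j → ⟪z' l, x⟫ ≤ 1 / 2} := by
  obtain ⟨i, j, hij, hA, hB, hcos⟩ := exists_big_pair h.norm_one (h.eq.symm ▸ hr)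
  have hp := hobt i j hij
  set A := ‖z i‖
  set B := ‖z j‖
  set p := ⟪z i, z j⟫ with hp_def
  set D := ‖z i - z j‖ with hD
  have hD2 : D ^ 2 = A ^ 2 + B ^ 2 - 2 * p := by
    rw [hD, norm_sub_sq_real]; ring
  have hAB : A ^ 2 + B ^ 2 ≤ 1 := by
    rw [← h.norm_one, ← Finset.sum_pair hij (f := fun l => ‖z l‖ ^ 2)]
    exact sum_le_sum_of_subset_of_nonneg (subset_univ _) fun l _ _ => sq_nonneg _
  have hD0 : 0 < D := by
    refine (norm_nonneg _).lt_of_ne' fun e => ?_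
    rw [← hD] at e
    rw [e] at hD2
    linarith [sq_nonneg A, sq_nonneg B]
  have hD1 : D ≤ 3 / 2 := by
    refine le_of_sq_le_sq ?_ (by norm_num)
    nlinarith [sq_nonneg (A - B)]
  set dh := D⁻¹ • (z i - z j) with hdh
  set c : Fin (k + 1) → ℝ := fun l => ⟪z l, dh⟫ with hc
  set z' : Fin (k + 1) → EuclideanSpace ℝ (Fin (k + 1)) := fun l => z l - c l • dh with hz'
  have hdd : ⟪dh, dh⟫ = (1 : ℝ) := by
    rw [hdh, real_inner_smul_left, real_inner_smul_right, real_inner_self_eq_norm_sq, ← hD]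
    field_simp
  have hzz : ∀ l m, ⟪z' l, z' m⟫ = ⟪z l, z m⟫ - c l * c m := fun l m => by
    have a1 : ⟪z l, dh⟫ = c l := rfl
    have a2 : ⟪dh, z m⟫ = c m := (real_inner_comm _ _).trans rfl
    simp only [hz', inner_sub_left, inner_sub_right, real_inner_smul_left, real_inner_smul_right,
      a1, a2, hdd]
    ring
  have hcd : ∀ l, c l = (⟪z l, z i⟫ - ⟪z l, z j⟫) / D := fun l => by
    simp only [hc, hdh, real_inner_smul_right, inner_sub_right]
    ring
  have hij' : c i - c j = D := by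
    rw [hcd, hcd, real_inner_self_eq_norm_sq, real_inner_self_eq_norm_sq, real_inner_comm (z i) (z j),
      ← hp_def, div_sub_div_same, div_eq_iff hD0.ne']
    linarith
  have hzij : z' j = z' i := by
    rw [← sub_eq_zero]
    simp only [hz']
    rw [show z j - c j • dh - (z i - c i • dh) = (c i - c j) • dh - (z i - z j) by module, hij', hdh,
      smul_inv_smul₀ hD0.ne', sub_self]
  set u := z' i with hu
  have hci : c i = (A ^ 2 - p) / D := by rw [hcd, real_inner_self_eq_norm_sq]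
  have hu2 : 88 / 10000 ≤ ‖u‖ ^ 2 := by
    rw [← real_inner_self_eq_norm_sq, hu, hzz, real_inner_self_eq_norm_sq, hci]
    refine le_of_mul_le_mul_right ?_ (pow_pos hD0 2)
    have := big_pair_bound (norm_nonneg (z i)) (norm_nonneg (z j)) hA hB hp (by linarith)
    field_simp
    rw [hD2]
    linarith
  have hu0 : 0 < ‖u‖ ^ 2 := by linarith
  have hneg : ∀ l, l ≠ i → l ≠ j → ⟪z' l, u⟫ ≤ 0 := fun l hli hlj => by
    rw [hu, hzz, hci, hcd]
    refine le_of_mul_le_mul_right ?_ (pow_pos hD0 2)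
    field_simp
    rw [hD2]
    nlinarith [hobt l i hli, hobt l j hlj, sq_nonneg A, sq_nonneg B]
  set W : Fin (k + 1) → EuclideanSpace ℝ (Fin (k + 1)) :=
    fun l => if l = i ∨ l = j then 0 else z' l - (⟪z' l, u⟫ / ‖u‖ ^ 2) • u with hW
  have hWu : ∀ l, ⟪u, W l⟫ = 0 := fun l => by
    simp only [hW]
    split
    · simp
    · rw [inner_sub_right, real_inner_smul_right, real_inner_self_eq_norm_sq,
        div_mul_cancel₀ _ hu0.ne', real_inner_comm, sub_self]
  have hz'n : ∀ l, ‖z' l‖ ^ 2 ≤ ‖z l‖ ^ 2 := fun l => by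
    rw [← real_inner_self_eq_norm_sq, ← real_inner_self_eq_norm_sq, hzz]
    linarith [mul_self_nonneg (c l)]
  have hWsum : ∑ l, ‖W l‖ ^ 2 ≤ 9025 / 10000 := by
    have e : ∑ l, (‖W l‖ ^ 2 + ((Pi.single i (A ^ 2) : Fin (k + 1) → ℝ) l
        + (Pi.single j (B ^ 2) : Fin (k + 1) → ℝ) l)) ≤ ∑ l, ‖z l‖ ^ 2 := by
      refine Finset.sum_le_sum fun l _ => ?_
      rcases eq_or_ne l i with rfl | hli
      · simp [hW, hij, A]
      rcases eq_or_ne l j with rfl | hlj
      · simp [hW, hij.symm, B]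
      rw [Pi.single_eq_of_ne hli, Pi.single_eq_of_ne hlj, add_zero, add_zero]
      refine le_trans ?_ (hz'n l)
      simp only [hW, hli, hlj, or_self, if_false]
      rw [norm_sub_sq_real, real_inner_smul_right, norm_smul, mul_pow, Real.norm_eq_abs, sq_abs,
        div_pow]
      have h0 : 0 ≤ ⟪z' l, u⟫ ^ 2 / ‖u‖ ^ 2 := by positivity
      refine le_of_eq_of_le ?_ (sub_le_self _ h0)
      field_simp
      ring
    rw [sum_add_distrib, sum_add_distrib, Finset.sum_pi_single', Finset.sum_pi_single',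
      h.norm_one] at e
    simp only [Finset.mem_univ, if_true] at e
    linarith
  have hpE : 31 / 250 * (21 / 100 * (3989 / 10000 * (1 / 8900000))) ≤ (stdGaussian (EuclideanSpace ℝ (Fin (k + 1)))).real
      {x | 51 / 100 ≤ ⟪u, x⟫ ∧ ∀ l, l ≠ i → l ≠ j → ⟪z' l, x⟫ ≤ 1 / 2} := by
    refine (le_measureReal_top u hu2 W hWu hWsum).trans (measureReal_mono ?_)
    rintro x ⟨hx, hxW⟩
    refine ⟨hx, fun l hli hlj => ?_⟩
    have h1 := hxW l
    simp only [hW, hli, hlj, or_self, if_false] at h1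
    rw [inner_sub_left, real_inner_smul_left] at h1
    have := mul_nonpos_of_nonpos_of_nonneg
      (div_nonpos_of_nonpos_of_nonneg (hneg l hli hlj) hu0.le)
      (show (0 : ℝ) ≤ ⟪u, x⟫ by linarith)
    linarith
  refine ⟨i, j, c, z', hij, hzij, hzz, fun l => ?_, hij'.symm ▸ hD0, hij'.trans_le hD1, hpE⟩
  refine (abs_real_inner_le_norm _ _).trans ?_
  rw [norm_eq_sqrt_real_inner dh, hdd, Real.sqrt_one, mul_one]
  have := single_le_sum (f := fun m => ‖z m‖ ^ 2) (fun m _ => sq_nonneg _) (Finset.mem_univ l)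
  rw [h.norm_one] at this
  exact (pow_le_one_iff_of_nonneg (norm_nonneg _) two_ne_zero).1 this

/-- The upper bound for one raised vector. -/
lemma gmax_perturb_single_le {z : Fin (k + 1) → EuclideanSpace ℝ (Fin (k + 1))} {r : ℝ}
    (h : Extremal z r) (hr0 : 0 < r) {c : Fin (k + 1) → ℝ}
    {z' : Fin (k + 1) → EuclideanSpace ℝ (Fin (k + 1))}
    (hzz : ∀ l m, ⟪z' l, z' m⟫ = ⟪z l, z m⟫ - c l * c m) (m : Fin (k + 1)) (ε : ℝ) :
    gmax (perturb c z' (Pi.single m ε)) ≤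
      r * (1 + ε ^ 2 * (1 - 1 / ((k : ℝ) + 1)) / 2) := by
  set K : ℝ := (k : ℝ) + 1 with hK
  have hK2 : 1 ≤ K := le_add_of_nonneg_left (Nat.cast_nonneg k)
  rw [← gmax_perturb_sub c z' (Pi.single m ε) (ε / K)]
  refine (h.le _ _).trans (mul_le_mul_of_nonneg_left ?_ hr0.le)
  have e1 : ∀ l, ‖perturb c z' (fun l => (Pi.single m ε : Fin (k + 1) → ℝ) l - ε / K) l‖ ^ 2 =
      (Pi.single m (ε * (ε - 2 * (ε / K))) : Fin (k + 1) → ℝ) l + (ε / K * (ε / K) + ‖z l‖ ^ 2) :=
    fun l => by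
      rw [← real_inner_self_eq_norm_sq, inner_perturb_perturb, hzz, real_inner_self_eq_norm_sq]
      rcases eq_or_ne l m with rfl | hl
      · simp only [Pi.single_eq_same]; ring
      · simp only [Pi.single_eq_of_ne hl]; ring
  have e : ∑ l, ‖perturb c z' (fun l => (Pi.single m ε : Fin (k + 1) → ℝ) l - ε / K) l‖ ^ 2 =
      1 + ε ^ 2 * (1 - 1 / K) := by
    simp only [e1, sum_add_distrib, Finset.sum_pi_single', Finset.mem_univ, if_true, sum_const,
      card_univ, Fintype.card_fin, nsmul_eq_mul, h.norm_one]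
    push_cast
    rw [← hK]
    field_simp
    ring
  have hK1 : 1 / K ≤ 1 := div_le_one_of_le₀ (by linarith) (by linarith)
  have hnn : 0 ≤ ε ^ 2 * (1 - 1 / K) := mul_nonneg (sq_nonneg ε) (by linarith)
  rw [e, Real.sqrt_le_left (by linarith)]
  nlinarith [sq_nonneg (ε ^ 2 * (1 - 1 / K))]

/-- The lower bound for a raised pair, from stretching the simplex. -/
lemma le_gmax_perturb_pair {z : Fin (k + 1) → EuclideanSpace ℝ (Fin (k + 1))} {r : ℝ}
    (h : Extremal z r) (hr0 : 0 < r) (hobt : ∀ i j, i ≠ j → ⟪z i, z j⟫ < 0)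
    {c : Fin (k + 1) → ℝ} {z' : Fin (k + 1) → EuclideanSpace ℝ (Fin (k + 1))}
    (hzz : ∀ l m, ⟪z' l, z' m⟫ = ⟪z l, z m⟫ - c l * c m) {i j : Fin (k + 1)} (hij : i ≠ j) :
    ∃ E₀ : ℝ, 0 ≤ E₀ ∧ ∀ ε : ℝ, r * (1 + ε ^ 2 * (1 - 2 / ((k : ℝ) + 1) - ε ^ 2 * E₀ / 4)) ≤
      gmax (perturb c z' (Pi.single i ε + Pi.single j ε)) := by
  set K : ℝ := (k : ℝ) + 1 with hK
  have hK2 : 2 ≤ K := by
    have : 1 < Fintype.card (Fin (k + 1)) := Fintype.one_lt_card_iff.2 ⟨i, j, hij⟩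
    rw [Fintype.card_fin] at this
    rw [hK]
    exact_mod_cast this
  set w : Fin (k + 1) → ℝ := fun l => (Pi.single i 1 + Pi.single j 1 : Fin (k + 1) → ℝ) l - 2 / K
    with hw
  have hw0 : ∑ l, w l = 0 := by
    simp only [hw, Pi.add_apply, sum_sub_distrib, sum_add_distrib, Finset.sum_pi_single',
      Finset.mem_univ, if_true, sum_const, card_univ, Fintype.card_fin, nsmul_eq_mul]
    push_cast
    rw [← hK]
    field_simp
    ring
  have e1 : ∀ l, w l ^ 2 = (1 - 4 / K) *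
      ((Pi.single i 1 : Fin (k + 1) → ℝ) l + (Pi.single j 1 : Fin (k + 1) → ℝ) l)
      + 4 / K ^ 2 := fun l => by
    simp only [hw, Pi.add_apply, Pi.single_apply]
    split_ifs with a b
    · exact absurd (a.symm.trans b) hij
    all_goals ring
  have hV : ∑ l, w l ^ 2 = 2 - 4 / K := by
    simp only [e1, ← mul_sum, sum_add_distrib, Finset.sum_pi_single', Finset.mem_univ, if_true,
      sum_const, card_univ, Fintype.card_fin, nsmul_eq_mul]
    push_cast
    rw [← hK]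
    field_simp
    ring
  obtain ⟨e₀, he₀⟩ := exists_inner_eq hobt (h.sum_eq_zero' hr0) hw0
  refine ⟨‖e₀‖ ^ 2, sq_nonneg _, fun ε => ?_⟩
  obtain ⟨y, hy, hylow⟩ := le_gmax_stretch (h.moment_eq hr0) h.norm_one (ε • e₀)
  have hwe : ∀ l, ⟪z l, ε • e₀⟫ = ε * w l := fun l => by rw [real_inner_smul_right, he₀]
  have hwv : ∀ l, ε * w l = (Pi.single i ε + Pi.single j ε : Fin (k + 1) → ℝ) l - ε * (2 / K) :=
    fun l => by
      simp only [hw, Pi.add_apply, Pi.single_apply]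
      split_ifs <;> ring
  have hyw : gmax y = gmax (perturb c z' (Pi.single i ε + Pi.single j ε)) := by
    have h1 := gmax_perturb_sub c z' (Pi.single i ε + Pi.single j ε : Fin (k + 1) → ℝ) (ε * (2 / K))
    rw [← h1]
    refine gmax_gram_congr fun l m => ?_
    rw [hy, inner_perturb_perturb, hzz, hwe, hwe, hwv, hwv]
    ring
  rw [← hyw]
  refine le_trans (mul_le_mul_of_nonneg_left ?_ hr0.le) hylow
  rw [Finset.sum_congr rfl fun l _ => show ⟪z l, ε • e₀⟫ ^ 2 = ε ^ 2 * w l ^ 2 by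
    rw [hwe, mul_pow], ← mul_sum, hV]
  set E := ‖ε • e₀‖ ^ 2 with hE
  have hE' : ε ^ 2 * ‖e₀‖ ^ 2 = E := by rw [hE, norm_smul, mul_pow, Real.norm_eq_abs, sq_abs]
  have hE0 : 0 ≤ E := sq_nonneg _
  rw [hE']
  have hinv : (1 - E / 4) / 2 ≤ (√(1 + E) + 1)⁻¹ := by
    have hs : √(1 + E) ≤ 1 + E / 2 := by
      rw [Real.sqrt_le_left (by linarith)]; nlinarith
    rw [← one_div, le_div_iff₀ (by positivity)]
    rcases le_total E 4 with h4 | h4
    · nlinarith
    · nlinarith [Real.sqrt_nonneg (1 + E)]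
  have hk : 0 ≤ 2 - 4 / K := by
    rw [sub_nonneg, div_le_iff₀ (by linarith)]; linarith
  have h0 : 0 ≤ E * (1 / K) := mul_nonneg hE0 (by positivity)
  have e : (1 - E / 4) / 2 * (2 - 4 / K) = 1 - 2 / K - E / 4 + E * (1 / K) / 2 := by ring
  have h1 := mul_le_mul_of_nonneg_right hinv hk
  have h2 := mul_le_mul_of_nonneg_left (show 1 - 2 / K - E / 4 ≤
    (√(1 + E) + 1)⁻¹ * (2 - 4 / K) by linarith) (sq_nonneg ε)
  linarith

/-- An extremal obtuse simplex beating the propeller has at most `10 ^ 11` vertices. -/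
theorem card_le_of_extremal {z : Fin (k + 1) → EuclideanSpace ℝ (Fin (k + 1))} {r : ℝ}
    (h : Extremal z r) (hr : 598 / 1000 < r) (hobt : ∀ i j, i ≠ j → ⟪z i, z j⟫ < 0) :
    (k : ℝ) + 1 ≤ 10 ^ 11 := by
  have hr0 : 0 < r := by linarith
  have hr1 : r ≤ 637 / 1000 := by
    have h1 := score_le (fun i => (measurableSet_argCell z i).nullMeasurableSet)
      fun i j hij => (pairwise_disjoint_argCell z hij).aedisjoint
    have h2 : score (argCell z) = r ^ 2 := by
      simp only [score, h.moment_eq hr0, norm_smul, mul_pow, Real.norm_eq_abs, sq_abs, ← mul_sum,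
        h.norm_one, mul_one]
    nlinarith
  obtain ⟨i, j, c, z', hij, hzij, hzz, hc, hD0, hD1, hpE⟩ := exists_split h hr hobt
  obtain ⟨E₀, hE₀, hlow⟩ := le_gmax_perturb_pair h hr0 hobt hzz hij
  set D := c i - c j with hD
  set P : ℝ := 31 / 250 * (21 / 100 * (3989 / 10000 * (1 / 8900000))) with hP
  have hP0 : 0 ≤ P := by rw [hP]; norm_num
  set K : ℝ := (k : ℝ) + 1 with hK
  have hK2 : 2 ≤ K := by
    have : 1 < Fintype.card (Fin (k + 1)) := Fintype.one_lt_card_iff.2 ⟨i, j, hij⟩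
    rw [Fintype.card_fin] at this
    rw [hK]
    exact_mod_cast this
  by_contra hbig
  rw [not_le] at hbig
  set δ : ℝ := 398 / 60000 * P with hδ
  have hgap : r / K < δ := by
    rw [div_lt_iff₀ (by linarith), hδ, hP]
    norm_num at hbig ⊢
    linarith
  set g := δ - r / K with hg
  have hg0 : 0 < g := sub_pos.2 hgap
  set ε := min (min (D / 100) 1) (g / (E₀ + 1)) with hε
  have hε0 : 0 < ε := lt_min (lt_min (by positivity) one_pos) (by positivity)
  have hε1 : ε ≤ D / 100 := (min_le_left _ _).trans (min_le_left _ _)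
  have hε2 : ε ≤ 1 := (min_le_left _ _).trans (min_le_right _ _)
  have hεg : ε * (E₀ + 1) ≤ g := (le_div_iff₀ (by positivity)).1 (min_le_right _ _)
  have h00 : gmax (perturb c z' 0) = r :=
    (gmax_gram_congr fun l m => by simp [inner_perturb_perturb, hzz]).trans h.eq
  have hgain := gain_perturb c z' hij (z' i) rfl hzij (p := P) (η := ε / (2 * D)) hε0
    (by positivity) (by rw [div_le_iff₀ (by positivity)]; linarith) hc
    (by rw [← hD, abs_of_pos hD0]; exact le_of_eq (by field_simp)) hpE hP0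
  have hi := gmax_perturb_single_le h hr0 hzz i ε
  have hj := gmax_perturb_single_le h hr0 hzz j ε
  have hl := hlow ε
  rw [h00] at hgain
  have hD' : δ * ε ^ 2 ≤ ε / 2 * (1 / 20 * (2 * (ε / (2 * D)) * (398 / 1000) * P)) := by
    rw [show ε / 2 * (1 / 20 * (2 * (ε / (2 * D)) * (398 / 1000) * P)) =
      398 / 40000 * P * ε ^ 2 / D by field_simp; ring, le_div_iff₀ hD0, hδ]
    have h0 : 0 ≤ P * ε ^ 2 := mul_nonneg hP0 (sq_nonneg ε)
    nlinarith
  have hfin : δ * ε ^ 2 ≤ (r / K + r * (ε ^ 2 * E₀ / 4)) * ε ^ 2 := by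
    rw [← hK] at hi hj
    have e1 : r * (1 + ε ^ 2 * (1 - 1 / K) / 2) * 2 - r * (1 + ε ^ 2 * (1 - 2 / K - ε ^ 2 * E₀ / 4))
        = r + (r / K + r * (ε ^ 2 * E₀ / 4)) * ε ^ 2 := by ring
    linarith
  have hfin' := le_of_mul_le_mul_right hfin (pow_pos hε0 2)
  have hEs : r * (ε ^ 2 * E₀ / 4) < g := by
    have h1 : ε * E₀ < g := by linarith
    have h2 : ε ^ 2 * E₀ ≤ ε * E₀ :=
      mul_le_mul_of_nonneg_right (pow_le_of_le_one hε0.le hε2 two_ne_zero) hE₀
    nlinarith [mul_nonneg (sq_nonneg ε) hE₀]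
  linarith

end Vale.Agent.P226
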