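import Vale.Agent.P226.Partition

/-!
# Gaussian laws determined by Gram matrices, and independent coordinates
-/

open MeasureTheory ProbabilityTheory Real Set
open scoped RealInnerProductSpace

namespace Vale.Agent.P226

variable {d d' k : ℕ}

/-- The vector of inner products with a family. -/
noncomputable def coordMap (z : Fin k → EuclideanSpace ℝ (Fin d)) (x : EuclideanSpace ℝ (Fin d)) :
    EuclideanSpace ℝ (Fin k) := WithLp.toLp 2 fun i => ⟪z i, x⟫

@[simp] lemma coordMap_apply (z : Fin k → EuclideanSpace ℝ (Fin d)) (x) (i : Fin k) :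
    coordMap z x i = ⟪z i, x⟫ := rfl

lemma continuous_coordMap (z : Fin k → EuclideanSpace ℝ (Fin d)) : Continuous (coordMap z) := by
  unfold coordMap
  fun_prop

/-- The law of the inner products depends only on the Gram matrix. -/
theorem map_coordMap_eq {z : Fin k → EuclideanSpace ℝ (Fin d)}
    {z' : Fin k → EuclideanSpace ℝ (Fin d')} (h : ∀ i j, ⟪z i, z j⟫ = ⟪z' i, z' j⟫) :
    (stdGaussian (EuclideanSpace ℝ (Fin d))).map (coordMap z) =
      (stdGaussian (EuclideanSpace ℝ (Fin d'))).map (coordMap z') := by
  have := Measure.isProbabilityMeasure_map (μ := stdGaussian (EuclideanSpace ℝ (Fin d)))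
    (continuous_coordMap z).aemeasurable
  have := Measure.isProbabilityMeasure_map (μ := stdGaussian (EuclideanSpace ℝ (Fin d')))
    (continuous_coordMap z').aemeasurable
  have key : ∀ {e : ℕ} (w : Fin k → EuclideanSpace ℝ (Fin e)) (t : EuclideanSpace ℝ (Fin k)),
      charFun ((stdGaussian (EuclideanSpace ℝ (Fin e))).map (coordMap w)) t =
        Complex.exp (-(((‖∑ i, t i • w i‖ : ℝ) : ℂ)) ^ 2 / 2) := by
    intro e w t
    rw [← charFun_stdGaussian, charFun_apply, charFun_apply,
      integral_map (continuous_coordMap w).aemeasurable (by fun_prop)]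
    refine integral_congr_ae (ae_of_all _ fun x => ?_)
    have hxt : ⟪coordMap w x, t⟫ = ⟪x, ∑ i, t i • w i⟫ := by
      rw [inner_sum, PiLp.inner_apply]
      exact Finset.sum_congr rfl fun i _ => by
        rw [real_inner_smul_right, coordMap_apply, real_inner_comm x (w i)]
        simp [RCLike.inner_apply]
    simp only [hxt]
  refine Measure.ext_of_charFun (funext fun t => ?_)
  rw [key, key]
  have hn : ‖∑ i, t i • z i‖ ^ 2 = ‖∑ i, t i • z' i‖ ^ 2 := by
    simp only [← real_inner_self_eq_norm_sq, sum_inner, inner_sum, real_inner_smul_left,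
      real_inner_smul_right, h]
  rw [← Complex.ofReal_pow, ← Complex.ofReal_pow, hn]

/-- Probabilities of events in the inner products depend only on the Gram matrix. -/
theorem measureReal_coordMap_eq {z : Fin k → EuclideanSpace ℝ (Fin d)}
    {z' : Fin k → EuclideanSpace ℝ (Fin d')} (h : ∀ i j, ⟪z i, z j⟫ = ⟪z' i, z' j⟫)
    {S : Set (EuclideanSpace ℝ (Fin k))} (hS : MeasurableSet S) :
    (stdGaussian (EuclideanSpace ℝ (Fin d))).real (coordMap z ⁻¹' S) =
      (stdGaussian (EuclideanSpace ℝ (Fin d'))).real (coordMap z' ⁻¹' S) := by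
  rw [← map_measureReal_apply (continuous_coordMap z).measurable hS,
    ← map_measureReal_apply (continuous_coordMap z').measurable hS, map_coordMap_eq h]

/-- Every family of `k` vectors has a copy with the same Gram matrix in dimension `k`. -/
theorem exists_gram_copy (z : Fin k → EuclideanSpace ℝ (Fin d)) :
    ∃ y : Fin k → EuclideanSpace ℝ (Fin k), ∀ i j, ⟪y i, y j⟫ = ⟪z i, z j⟫ := by
  classical
  set S := Submodule.span ℝ (Set.range z) with hS
  have hn : Module.finrank ℝ S ≤ k := by
    simpa [hS, Set.finrank] using finrank_range_le_card (R := ℝ) z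
  set b := stdOrthonormalBasis ℝ S with hb
  set emb : Fin (Module.finrank ℝ S) → Fin k := Fin.castLE hn
  have hemb : Function.Injective emb := Fin.castLE_injective hn
  let zS : Fin k → S := fun i => ⟨z i, Submodule.subset_span ⟨i, rfl⟩⟩
  refine ⟨fun i => WithLp.toLp 2 (Function.extend emb (fun l => b.repr (zS i) l) 0),
    fun i j => ?_⟩
  rw [PiLp.inner_apply]
  simp only [RCLike.inner_apply, conj_trivial]
  rw [← Fintype.sum_of_injective emb hemb
    (fun l => b.repr (zS j) l * b.repr (zS i) l)
    (fun l => Function.extend emb (fun l => b.repr (zS j) l) 0 l *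
      Function.extend emb (fun l => b.repr (zS i) l) 0 l)
    (fun l hl => by
      simp [Function.extend_apply' _ _ _ (fun ⟨a, ha⟩ => hl ⟨a, ha⟩)])
    (fun l => by simp [hemb.extend_apply])]
  have := b.repr.inner_map_map (zS i) (zS j)
  rw [Submodule.coe_inner] at this
  rw [← this, PiLp.inner_apply]
  simp [zS]

/-- The first coordinate and the others are independent. -/
theorem measureReal_cons {n : ℕ} {I : Set ℝ} (hI : MeasurableSet I)
    {S : Set (EuclideanSpace ℝ (Fin n))} (hS : MeasurableSet S) :
    (stdGaussian (EuclideanSpace ℝ (Fin (n + 1)))).real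
        {w | w 0 ∈ I ∧ WithLp.toLp 2 (fun i : Fin n => w i.succ) ∈ S} =
      (gaussianReal 0 1).real I * (stdGaussian (EuclideanSpace ℝ (Fin n))).real S := by
  have hm : MeasurableSet {w : EuclideanSpace ℝ (Fin (n + 1)) |
      w 0 ∈ I ∧ WithLp.toLp 2 (fun i : Fin n => w i.succ) ∈ S} :=
    (hI.preimage (by fun_prop)).inter (hS.preimage (by fun_prop))
  rw [← map_pi_eq_stdGaussian, ← map_pi_eq_stdGaussian,
    map_measureReal_apply (by fun_prop) hm, map_measureReal_apply (by fun_prop) hS,
    ← measureReal_prod_prod I (WithLp.toLp 2 ⁻¹' S)]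
  have hp := measurePreserving_piFinSuccAbove (fun _ : Fin (n + 1) => gaussianReal 0 1) 0
  rw [← hp.measureReal_preimage
    ((hI.prod (hS.preimage (by fun_prop))).nullMeasurableSet)]
  rfl

end Vale.Agent.P226
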