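import Vale.Agent.P226.Reduce.Perturb
import Vale.Agent.P226.Reduce.Extremal
import Vale.Agent.P226.Reduce.Cells

/-!
# An extremal simplex has few vertices

Two large vectors of the simplex give a near tie at the top of the Gaussian field with probability
bounded below, so the second variation of the expected maximum is negative unless the number of
vertices is bounded.
-/

open MeasureTheory ProbabilityTheory Real Set Finset
open scoped RealInnerProductSpace

namespace Vale.Agent.P226

variable {d k : ℕ}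

/-- A lower bound for the probability of a high common value above all other vectors. -/
theorem le_measureReal_top (u : EuclideanSpace ℝ (Fin d)) (hu : 88 / 10000 ≤ ‖u‖ ^ 2)
    (W : Fin k → EuclideanSpace ℝ (Fin d)) (hW : ∀ l, ⟪u, W l⟫ = 0)
    (hsum : ∑ l, ‖W l‖ ^ 2 ≤ 9025 / 10000) :
    31 / 250 * (21 / 100 * (3989 / 10000 * (1 / 8900000))) ≤
      (stdGaussian (EuclideanSpace ℝ (Fin d))).real
        {x | 51 / 100 ≤ ⟪u, x⟫ ∧ ∀ l, ⟪W l, x⟫ ≤ 1 / 2} := by
  have hu0 : 0 < ‖u‖ := (norm_nonneg u).lt_of_ne' fun e => by rw [e] at hu; norm_num at hu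
  have hu1 : 938 / 10000 ≤ ‖u‖ := le_of_sq_le_sq (by linarith) (norm_nonneg u)
  set S : Set (EuclideanSpace ℝ (Fin (k + 1))) :=
    {y | 51 / 100 ≤ y 0 ∧ ∀ l : Fin k, y l.succ ≤ 1 / 2} with hS
  have hSm : MeasurableSet S := by
    simp only [hS, ofPred_and, ofPred_forall]
    exact (measurableSet_le (by fun_prop) (by fun_prop)).inter
      (MeasurableSet.iInter fun l => measurableSet_le (by fun_prop) (by fun_prop))
  set f : Fin (k + 1) → EuclideanSpace ℝ (Fin d) := Fin.cons u W with hf
  set f' : Fin (k + 1) → EuclideanSpace ℝ (Fin (d + 1)) :=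
    Fin.cons (consV ‖u‖ 0) fun l => consV 0 (W l) with hf'
  have hG : ∀ a b, ⟪f a, f b⟫ = ⟪f' a, f' b⟫ := by
    intro a b
    have hW' : ∀ l, ⟪W l, u⟫ = 0 := fun l => by rw [real_inner_comm]; exact hW l
    cases a using Fin.cases <;> cases b using Fin.cases <;>
      simp [hf, hf', inner_consV, hW, hW', -inner_self_eq_norm_sq_to_K]
    exact real_inner_self_eq_norm_mul_norm u
  set T : Set (EuclideanSpace ℝ (Fin d)) := {x | ∀ l, ⟪W l, x⟫ ≤ 1 / 2} with hT
  have hTm : MeasurableSet T := by
    simp only [hT, ofPred_forall]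
    exact MeasurableSet.iInter fun l => measurableSet_le (by fun_prop) (by fun_prop)
  have hset : coordMap f' ⁻¹' S =
      {w | w 0 ∈ Set.Ici (51 / 100 / ‖u‖) ∧ WithLp.toLp 2 (fun i : Fin d => w i.succ) ∈ T} := by
    ext w
    simp [hS, hT, hf', inner_consV, tailV, div_le_iff₀ hu0, mul_comm]
  have heq : (stdGaussian (EuclideanSpace ℝ (Fin d))).real
      {x | 51 / 100 ≤ ⟪u, x⟫ ∧ ∀ l, ⟪W l, x⟫ ≤ 1 / 2} =
      (gaussianReal 0 1).real (Set.Ici (51 / 100 / ‖u‖)) *
        (stdGaussian (EuclideanSpace ℝ (Fin d))).real T := by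
    rw [← measureReal_cons measurableSet_Ici hTm, ← hset, ← measureReal_coordMap_eq hG hSm]
    simp [hS, hf, Set.preimage]
  rw [heq]
  have h1 : 21 / 100 * (3989 / 10000 * (1 / 8900000)) ≤
      (gaussianReal 0 1).real (Set.Ici (51 / 100 / ‖u‖)) := by
    have hb : 51 / 100 / ‖u‖ ≤ 544 / 100 := by rw [div_le_iff₀ hu0]; linarith
    have h2 := le_gauss_interval (a := 544 / 100) (b := 565 / 100) (B := 32) (by norm_num)
      fun x hx => by nlinarith [hx.1, hx.2]
    refine le_trans ?_ (h2.trans (measureReal_mono fun x hx => hb.trans hx.1))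
    have := exp_neg_sixteen
    rw [show -(32 / 2 : ℝ) = -16 by norm_num]
    linarith
  have h2 : 31 / 250 ≤ (stdGaussian (EuclideanSpace ℝ (Fin d))).real T := by
    have hc : (stdGaussian (EuclideanSpace ℝ (Fin d))).real Tᶜ ≤ ∑ l, 97 / 100 * ‖W l‖ ^ 2 := by
      rw [show Tᶜ = ⋃ l, {x | 1 / 2 < ⟪W l, x⟫} by ext; simp [hT]]
      refine (measureReal_iUnion_fintype_le _).trans (Finset.sum_le_sum fun l _ => ?_)
      rcases (norm_nonneg (W l)).eq_or_lt with h0 | h0
      · have hW0 : W l = 0 := norm_eq_zero.1 h0.symm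
        simp [hW0, show ¬((2 : ℝ) < 0) by norm_num]
      · have hm := map_measureReal_apply (μ := stdGaussian (EuclideanSpace ℝ (Fin d)))
          (f := fun x => ⟪W l, x⟫) (by fun_prop) (measurableSet_Ioi (a := (1 / 2 : ℝ)))
        rw [inner_law] at hm
        refine hm.symm.trans_le ?_
        have e2 : gaussianReal 0 ⟨‖W l‖ ^ 2, sq_nonneg _⟩
            = (gaussianReal 0 1).map (fun y => ‖W l‖ * y) := by
          rw [gaussianReal_map_const_mul, mul_zero, mul_one]
          rfl
        rw [e2, map_measureReal_apply (by fun_prop) measurableSet_Ioi,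
          Set.preimage_const_mul_Ioi₀ _ h0]
        refine (gauss_tail_le (div_pos (by norm_num) h0)).trans (le_of_eq ?_)
        field_simp
        norm_num
    rw [probReal_compl_eq_one_sub hTm, ← mul_sum] at hc
    linarith
  calc (31 / 250 * (21 / 100 * (3989 / 10000 * (1 / 8900000))) : ℝ)
      = 21 / 100 * (3989 / 10000 * (1 / 8900000)) * (31 / 250) := by ring
    _ ≤ _ := mul_le_mul h1 h2 (by norm_num) measureReal_nonneg

/-- Submodularity of the expected maximum, with the gain from near ties. -/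
theorem gain_perturb (c : Fin (k + 1) → ℝ) (z : Fin (k + 1) → EuclideanSpace ℝ (Fin d))
    {i j : Fin (k + 1)} (hij : i ≠ j) (u : EuclideanSpace ℝ (Fin d)) (hi : z i = u) (hj : z j = u)
    {p ε η : ℝ} (hε : 0 < ε) (hη : 0 ≤ η) (hη1 : η ≤ 1 / 200) (hc : ∀ l, |c l| ≤ 1)
    (hgap : |c i - c j| * η ≤ ε / 2)
    (hp : p ≤ (stdGaussian (EuclideanSpace ℝ (Fin d))).real
      {x | 51 / 100 ≤ ⟪u, x⟫ ∧ ∀ l, l ≠ i → l ≠ j → ⟪z l, x⟫ ≤ 1 / 2})
    (hp0 : 0 ≤ p) :
    gmax (perturb c z 0) + gmax (perturb c z (Pi.single i ε + Pi.single j ε)) +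
        ε / 2 * (1 / 20 * (2 * η * (398 / 1000) * p)) ≤
      gmax (perturb c z (Pi.single i ε)) + gmax (perturb c z (Pi.single j ε)) := by
  set μ := stdGaussian (EuclideanSpace ℝ (Fin (d + 1 + 1)))
  set T := {x : EuclideanSpace ℝ (Fin d) |
    51 / 100 ≤ ⟪u, x⟫ ∧ ∀ l, l ≠ i → l ≠ j → ⟪z l, x⟫ ≤ 1 / 2}
  have hTm : MeasurableSet T := by
    simp only [T, ofPred_and, ofPred_forall]
    exact (measurableSet_le (by fun_prop) (by fun_prop)).inter
      (MeasurableSet.iInter fun l => MeasurableSet.iInter fun _ => MeasurableSet.iInter fun _ =>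
        measurableSet_le (by fun_prop) (by fun_prop))
  set T₁ := {w : EuclideanSpace ℝ (Fin (d + 1)) |
    w 0 ∈ Set.Icc (-η) η ∧ WithLp.toLp 2 (fun i : Fin d => w i.succ) ∈ T}
  have hT₁m : MeasurableSet T₁ :=
    (measurableSet_Icc.preimage (by fun_prop)).inter (hTm.preimage (by fun_prop))
  set E := {w : EuclideanSpace ℝ (Fin (d + 1 + 1)) |
    w 0 ∈ Set.Icc (1 : ℝ) 2 ∧ WithLp.toLp 2 (fun i : Fin (d + 1) => w i.succ) ∈ T₁}
  have hEm : MeasurableSet E :=
    (measurableSet_Icc.preimage (by fun_prop)).inter (hT₁m.preimage (by fun_prop))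
  have hprob : 1 / 20 * (2 * η * (398 / 1000) * p) ≤ μ.real E := by
    rw [measureReal_cons measurableSet_Icc hT₁m, measureReal_cons measurableSet_Icc hTm]
    refine mul_le_mul ?_ (mul_le_mul ?_ hp hp0 measureReal_nonneg) (by positivity)
      measureReal_nonneg
    · refine le_trans ?_ (le_gauss_interval (B := 4) (by norm_num)
        fun x hx => by nlinarith [hx.1, hx.2])
      have : 1 / 7.39 ≤ exp (-2 : ℝ) := by
        rw [exp_neg, one_div]
        gcongr
        rw [show (2 : ℝ) = (2 : ℕ) * (1 : ℝ) by norm_num, exp_nat_mul]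
        refine (pow_le_pow_left₀ (exp_pos 1).le Real.exp_one_lt_d9.le 2).trans ?_
        norm_num
      rw [show -(4 / 2 : ℝ) = -2 by norm_num]
      norm_num at this ⊢
      linarith
    · refine le_trans ?_ (le_gauss_interval (B := η ^ 2) (by linarith)
        fun x hx => sq_le_sq' hx.1 hx.2)
      have := add_one_le_exp (-(η ^ 2 / 2))
      have hb : 398 / 1000 ≤ 3989 / 10000 * exp (-(η ^ 2 / 2)) := by nlinarith
      calc 2 * η * (398 / 1000) ≤ 2 * η * (3989 / 10000 * exp (-(η ^ 2 / 2))) :=
            mul_le_mul_of_nonneg_left hb (by positivity)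
        _ = _ := by ring
  have hI : ∀ v, Integrable (maxInner (perturb c z v)) μ := fun v => integrable_maxInner _
  have key : ε / 2 * μ.real E ≤ ∫ w, (maxInner (perturb c z (Pi.single i ε)) w
      + maxInner (perturb c z (Pi.single j ε)) w - maxInner (perturb c z 0) w
      - maxInner (perturb c z (Pi.single i ε + Pi.single j ε)) w) ∂μ := by
    rw [mul_comm, ← smul_eq_mul, ← integral_indicator_const (ε / 2) hEm]
    refine integral_mono ((integrable_const _).indicator hEm)
      ((((hI _).add (hI _)).sub (hI _)).sub (hI _)) fun w => ?_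
    simp only [maxInner_perturb]
    set g := fun l => c l * tailV w 0 + ⟪z l, tailV (tailV w)⟫ with hg
    set s := ε * w 0 with hs
    have e1 : ∀ m, (fun l => (Pi.single m ε : Fin (k + 1) → ℝ) l * w 0) = Pi.single m s :=
      fun m => funext fun l => by rcases eq_or_ne l m with rfl | h <;> simp [*]
    have e2 : (fun l => (Pi.single i ε + Pi.single j ε : Fin (k + 1) → ℝ) l * w 0) =
        Pi.single i s + Pi.single j s := by
      funext l
      simp only [Pi.add_apply, add_mul, congrFun (e1 i) l, congrFun (e1 j) l]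
    have e3 : (fun l => (0 : Fin (k + 1) → ℝ) l * w 0) = 0 := funext fun l => by simp
    simp only [e1, e2, e3]
    by_cases hw : w ∈ E
    · rw [indicator_of_mem hw]
      obtain ⟨hN, ht, hU, hrest⟩ := hw
      change tailV w 0 ∈ Set.Icc (-η) η at ht
      change 51 / 100 ≤ ⟪u, tailV (tailV w)⟫ at hU
      have hs0 : ε ≤ s := le_mul_of_one_le_right hε.le hN.1
      have hta : |tailV w 0| ≤ η := abs_le.2 ⟨ht.1, ht.2⟩
      have hct : ∀ l, |c l * tailV w 0| ≤ η := fun l => by
        rw [abs_mul]
        exact (mul_le_of_le_one_left (abs_nonneg _) (hc l)).trans hta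
      have hgap' : |g i - g j| ≤ s / 2 := by
        simp only [hg, hi, hj, add_sub_add_right_eq_sub, ← sub_mul, abs_mul]
        exact ((mul_le_mul_of_nonneg_left hta (abs_nonneg _)).trans hgap).trans (by linarith)
      have := shiftMax_gain g hij (hε.le.trans hs0) hgap' fun l hli hlj => by
        have h1 : ⟪z l, tailV (tailV w)⟫ ≤ 1 / 2 := hrest l hli hlj
        have := abs_le.1 (hct l)
        have := abs_le.1 (hct i)
        have := abs_le.1 (hct j)
        simp only [hg, hi, hj]
        constructor <;> linarith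
      linarith
    · rw [indicator_of_notMem hw]
      linarith [shiftMax_submodular g hij s]
  have hA : Integrable (fun w => maxInner (perturb c z (Pi.single i ε)) w
      + maxInner (perturb c z (Pi.single j ε)) w) μ := (hI _).add (hI _)
  have hB : Integrable (fun w => maxInner (perturb c z (Pi.single i ε)) w
      + maxInner (perturb c z (Pi.single j ε)) w - maxInner (perturb c z 0) w) μ := hA.sub (hI _)
  rw [integral_sub hB (hI _), integral_sub hA (hI _), integral_add (hI _) (hI _)] at key
  have := mul_le_mul_of_nonneg_left hprob (by linarith : 0 ≤ ε / 2)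
  simp only [gmax]
  linarith

end Vale.Agent.P226
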