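import Vale.Agent.P226.Reduce.Card

/-!
# Reduction of the propeller inequality to one finite case
-/

open MeasureTheory ProbabilityTheory Real Set Finset
open scoped RealInnerProductSpace Function

namespace Vale.Agent.P226

lemma propeller_sqrt {C : ℝ} (hC : 9 / (8 * π) ≤ C) : 598 / 1000 ≤ √C := by
  refine Real.le_sqrt_of_sq_le (le_trans ?_ hC)
  rw [le_div_iff₀ (by positivity)]
  nlinarith [Real.pi_lt_d4, Real.pi_pos]

/-- A partition bound in the base case gives the bound for all smaller families. -/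
lemma extremal_le_of_base {k M : ℕ} (hkM : k ≤ M) {B : ℝ}
    (hbase : ∀ A : Fin (M + 1) → Set (EuclideanSpace ℝ (Fin (M + 1))), (∀ i, MeasurableSet (A i)) →
      Pairwise (Disjoint on A) → ⋃ i, A i = Set.univ → score A ≤ B)
    {z : Fin (k + 1) → EuclideanSpace ℝ (Fin (k + 1))} {r : ℝ} (h : Extremal z r) : r ≤ √B := by
  classical
  set emb : Fin (k + 1) → Fin (M + 1) := Fin.castLE (by omega)
  have hemb : Function.Injective emb := Fin.castLE_injective _
  set z' : Fin (M + 1) → EuclideanSpace ℝ (Fin (k + 1)) := Function.extend emb z 0 with hz'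
  obtain ⟨y, hy⟩ := exists_gram_copy z'
  have h1 : gmax z ≤ gmax z' := integral_mono (integrable_maxInner z) (integrable_maxInner z')
    fun x => maxInner_le fun i => by
      rw [← hemb.extend_apply z 0 i]
      exact le_maxInner z' x _
  have h2 : ∑ i, ‖y i‖ ^ 2 = 1 := by
    simp only [← real_inner_self_eq_norm_sq, hy]
    rw [← h.norm_one]
    refine (Fintype.sum_of_injective emb hemb _ _ (fun l hl => ?_) fun l => ?_).symm
    · simp [hz', Function.extend_apply' _ _ _ fun ⟨a, ha⟩ => hl ⟨a, ha⟩]
    · rw [hz', hemb.extend_apply, real_inner_self_eq_norm_sq]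
  rw [← h.eq]
  refine h1.trans ?_
  rw [gmax_gram_congr fun i j => (hy i j).symm, ← sum_inner_moment_argCell]
  refine (sum_inner_le_sqrt _ _ _).trans ?_
  rw [h2, Real.sqrt_one, one_mul]
  exact Real.sqrt_le_sqrt (hbase _ (measurableSet_argCell y) (pairwise_disjoint_argCell y)
    (iUnion_argCell y))

/-- The expected maximum is controlled by the base case in every dimension. -/
theorem gmax_le_of_base {M : ℕ} (hM : (10 : ℝ) ^ 11 ≤ M + 1) {B C : ℝ}
    (hC : 9 / (8 * π) ≤ C) (hB : B ≤ C)
    (hbase : ∀ A : Fin (M + 1) → Set (EuclideanSpace ℝ (Fin (M + 1))), (∀ i, MeasurableSet (A i)) →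
      Pairwise (Disjoint on A) → ⋃ i, A i = Set.univ → score A ≤ B) :
    ∀ (k d : ℕ) (y : Fin (k + 1) → EuclideanSpace ℝ (Fin d)),
      gmax y ≤ √C * √(∑ i, ‖y i‖ ^ 2) := by
  intro k
  induction k with
  | zero =>
    intro d y
    obtain ⟨z, r, h⟩ := exists_extremal 0
    exact (h.le d y).trans (mul_le_mul_of_nonneg_right
      ((extremal_le_of_base (Nat.zero_le M) hbase h).trans (Real.sqrt_le_sqrt hB))
      (Real.sqrt_nonneg _))
  | succ k ih =>
    intro d y
    obtain ⟨z, r, h⟩ := exists_extremal (k + 1)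
    refine (h.le d y).trans (mul_le_mul_of_nonneg_right ?_ (Real.sqrt_nonneg _))
    rcases le_or_gt (k + 1) M with hk | hk
    · exact (extremal_le_of_base hk hbase h).trans (Real.sqrt_le_sqrt hB)
    by_contra hr
    rw [not_le] at hr
    have hsq := propeller_sqrt hC
    have hobt : ∀ i j, i ≠ j → ⟪z i, z j⟫ < 0 := fun i j hij =>
      h.inner_neg (Real.sqrt_nonneg C) hr ih hij
    have := card_le_of_extremal h (by linarith) hobt
    have hk' : (M : ℝ) + 1 ≤ (k : ℝ) + 1 := by exact_mod_cast Nat.succ_le_succ (Nat.lt_succ_iff.1 hk)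
    push_cast at this
    linarith

/-- The propeller quantity in every dimension is controlled by the base case. -/
theorem score_le_of_base {N : ℕ} (hN : (10 : ℝ) ^ 11 ≤ N) {B : ℝ}
    (hbase : ∀ A : Fin N → Set (EuclideanSpace ℝ (Fin N)), (∀ i, MeasurableSet (A i)) →
      Pairwise (Disjoint on A) → ⋃ i, A i = Set.univ → score A ≤ B)
    {d k : ℕ} {A : Fin k → Set (EuclideanSpace ℝ (Fin d))}
    (hm : ∀ i, NullMeasurableSet (A i) (stdGaussian (EuclideanSpace ℝ (Fin d))))
    (hd : Pairwise (AEDisjoint (stdGaussian (EuclideanSpace ℝ (Fin d))) on A)) :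
    score A ≤ max (9 / (8 * π)) B := by
  obtain ⟨M, rfl⟩ : ∃ M, N = M + 1 := by
    refine Nat.exists_eq_succ_of_ne_zero fun h => ?_
    rw [h] at hN
    norm_num at hN
  set C := max (9 / (8 * π)) B
  set y : Fin (k + 1) → EuclideanSpace ℝ (Fin d) := Fin.cons 0 fun i => moment (A i) with hy
  have hy0 : ∀ x, 0 ≤ maxInner y x := fun x =>
    le_of_eq_of_le (by simp [hy]) (le_maxInner y x 0)
  have hsum : ∑ i, ‖y i‖ ^ 2 = score A := by simp [Fin.sum_univ_succ, hy, score]
  have key : score A ≤ gmax y := by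
    calc score A = ∑ i, ⟪moment (A i), moment (A i)⟫ := by
          simp [score, real_inner_self_eq_norm_sq]
      _ ≤ ∑ i, ∫ x in A i, maxInner y x ∂stdGaussian (EuclideanSpace ℝ (Fin d)) := by
          refine Finset.sum_le_sum fun i _ => ?_
          rw [inner_moment]
          refine setIntegral_mono (integrable_inner' _).integrableOn
            (integrable_maxInner y).integrableOn fun x => ?_
          simpa [hy] using le_maxInner y x i.succ
      _ = ∫ x in ⋃ i, A i, maxInner y x ∂stdGaussian (EuclideanSpace ℝ (Fin d)) := by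
          rw [integral_iUnion_ae hm hd (integrable_maxInner y).integrableOn, tsum_fintype]
      _ ≤ gmax y := setIntegral_le_integral (integrable_maxInner y) (ae_of_all _ hy0)
  have hb := gmax_le_of_base (by exact_mod_cast hN) (le_max_left _ _) (le_max_right _ B) hbase k d y
  rw [hsum] at hb
  have hs0 : 0 ≤ score A := Finset.sum_nonneg fun _ _ => sq_nonneg _
  have hC0 : 0 ≤ C := (by positivity : (0 : ℝ) ≤ 9 / (8 * π)).trans (le_max_left _ _)
  rcases hs0.eq_or_lt with h | h
  · rw [← h]; exact hC0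
  have h2 : √(score A) ≤ √C := le_of_mul_le_mul_right
    (by rw [Real.mul_self_sqrt hs0]; exact key.trans hb) (Real.sqrt_pos.2 h)
  exact (Real.sqrt_le_sqrt_iff hC0).1 h2

end Vale.Agent.P226
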